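import Vale.Agent.P254.MC.G766.Def

open MeasureTheory Filter Topology
open scoped NNReal

namespace Vale.Agent.P254.MC.G766.AE

open Vale.Agent.P227 Vale.Agent.P227.M Vale.Agent.P227.M.LIN Vale.Agent.P254.MC Vale.Agent.P254.MC.G766

variable {n : ℕ} {ψ V : E n → ℝ} {c C M : ℝ}

lemma vec_eq_sum (v : E n) : v = ∑ i, v i • (ei i : E n) := by
  ext j
  simp [ei, Finset.sum_apply, Pi.single_apply]

/-- decomposition of a linear functional -/
lemma clm_eq_sum (l : E n →L[ℝ] ℝ) :
    l = ∑ i, l (ei i) • (EuclideanSpace.proj i : E n →L[ℝ] ℝ) := by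
  ext v
  conv_lhs => rw [vec_eq_sum v]
  simp [map_sum, mul_comm]

lemma norm_ei (i : Fin n) : ‖(ei i : E n)‖ = 1 := by simp [ei]

lemma pd_add {f g : E n → ℝ} {x : E n} (hf : DifferentiableAt ℝ f x) (hg : DifferentiableAt ℝ g x)
    (i : Fin n) : pd i (fun z => f z + g z) x = pd i f x + pd i g x := by
  unfold pd; rw [fderiv_fun_add hf hg]; rfl

lemma pd_sub {f g : E n → ℝ} {x : E n} (hf : DifferentiableAt ℝ f x) (hg : DifferentiableAt ℝ g x)
    (i : Fin n) : pd i (fun z => f z - g z) x = pd i f x - pd i g x := by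
  unfold pd; rw [fderiv_fun_sub hf hg]; rfl

lemma pd_mul {f g : E n → ℝ} {x : E n} (hf : DifferentiableAt ℝ f x) (hg : DifferentiableAt ℝ g x)
    (i : Fin n) : pd i (fun z => f z * g z) x = pd i f x * g x + f x * pd i g x := by
  unfold pd; rw [fderiv_fun_mul hf hg]; simp; ring

lemma pd_sum {ι : Type*} (s : Finset ι) {f : ι → E n → ℝ} {x : E n}
    (hf : ∀ k ∈ s, DifferentiableAt ℝ (f k) x) (i : Fin n) :
    pd i (fun z => ∑ k ∈ s, f k z) x = ∑ k ∈ s, pd i (f k) x := by
  unfold pd; rw [fderiv_fun_sum hf]; simp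

lemma pd_const (a : ℝ) (i : Fin n) (x : E n) : pd i (fun _ : E n => a) x = 0 := by
  unfold pd; simp

lemma pd_coord (i j : Fin n) (x : E n) : pd i (fun z : E n => z j) x = if j = i then 1 else 0 := by
  unfold pd
  have : (fun z : E n => z j) = (EuclideanSpace.proj j : E n →L[ℝ] ℝ) := rfl
  rw [this, ContinuousLinearMap.fderiv]
  simp [ei]

lemma diff_coord (j : Fin n) (x : E n) : DifferentiableAt ℝ (fun z : E n => z j) x :=
  (EuclideanSpace.proj j : E n →L[ℝ] ℝ).differentiableAt

lemma hess_symm (h : ContDiff ℝ 2 ψ) (x : E n) (i j : Fin n) : hess ψ x i j = hess ψ x j i := by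
  have h1 : Differentiable ℝ (fderiv ℝ ψ) :=
    (h.fderiv_right (m := 1) (by norm_num)).differentiable (by norm_num)
  have key : ∀ i j : Fin n, hess ψ x i j = fderiv ℝ (fderiv ℝ ψ) x (ei i) (ei j) := by
    intro i j
    unfold hess pd
    have := fderiv_clm_apply (𝕜 := ℝ) (c := fun y => fderiv ℝ ψ y) (u := fun _ => (ei j : E n))
      (x := x) h1.differentiableAt (differentiableAt_const _)
    rw [this]; simp
  rw [key, key]
  have := (h.contDiffAt (x := x)).isSymmSndFDerivAt (by simp)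
  exact this _ _

/-- `A v · v` for the Hessian matrix -/
lemma qf_eq (A : Matrix (Fin n) (Fin n) ℝ) (v : E n) :
    qf A v = ∑ i, v i * (A.mulVec (fun j => v j)) i := by
  unfold qf Matrix.mulVec dotProduct
  refine Finset.sum_congr rfl fun i _ => ?_
  rw [Finset.mul_sum]
  exact Finset.sum_congr rfl fun j _ => by ring

lemma hess_inj (h : MMg ψ V c C M) (x : E n) (w : Fin n → ℝ) (hw : (hess ψ x).mulVec w = 0) :
    w = 0 := by
  have h1 := h.lower x (WithLp.toLp 2 w)
  rw [qf_eq] at h1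
  have h2 : (∑ i, (WithLp.toLp 2 w : E n) i *
      ((hess ψ x).mulVec (fun j => (WithLp.toLp 2 w : E n) j)) i) = 0 := by
    have : (fun j => (WithLp.toLp 2 w : E n) j) = w := rfl
    rw [this, hw]; simp
  rw [h2] at h1
  have h3 : ‖(WithLp.toLp 2 w : E n)‖ = 0 := by
    have := h.c_pos
    have h4 : ‖(WithLp.toLp 2 w : E n)‖ ^ 2 ≤ 0 := by
      by_contra hcon
      push Not at hcon
      nlinarith
    nlinarith [norm_nonneg (WithLp.toLp 2 w : E n), sq_nonneg ‖(WithLp.toLp 2 w : E n)‖,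
      pow_eq_zero_iff (two_ne_zero) |>.mp (le_antisymm h4 (sq_nonneg _))]
  have h5 := norm_eq_zero.mp h3
  have : w = fun j => (WithLp.toLp 2 w : E n) j := rfl
  rw [this, h5]; rfl

lemma hess_det_isUnit (h : MMg ψ V c C M) (x : E n) : IsUnit (hess ψ x).det := by
  rw [isUnit_iff_ne_zero]
  intro h0
  obtain ⟨w, hw, hw0⟩ := Matrix.exists_mulVec_eq_zero_iff.mpr h0
  exact hw (hess_inj h x w hw0)

lemma hess_mul_tau (h : MMg ψ V c C M) (x : E n) : hess ψ x * tau ψ x = 1 :=
  Matrix.mul_nonsing_inv _ (hess_det_isUnit h x)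

lemma tau_mul_hess (h : MMg ψ V c C M) (x : E n) : tau ψ x * hess ψ x = 1 :=
  Matrix.nonsing_inv_mul _ (hess_det_isUnit h x)

lemma hess_transpose (h : MMg ψ V c C M) (x : E n) : (hess ψ x).transpose = hess ψ x := by
  ext i j
  exact hess_symm h.C2 x j i

lemma tau_transpose (h : MMg ψ V c C M) (x : E n) : (tau ψ x).transpose = tau ψ x := by
  unfold tau
  rw [Matrix.transpose_nonsing_inv, hess_transpose h x]

lemma tau_symm (h : MMg ψ V c C M) (x : E n) (i j : Fin n) : tau ψ x i j = tau ψ x j i := by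
  have := congrFun (congrFun (tau_transpose h x) j) i
  simpa [Matrix.transpose_apply] using this

lemma hess_tau_apply (h : MMg ψ V c C M) (x : E n) (i k : Fin n) :
    ∑ j, hess ψ x i j * tau ψ x j k = if i = k then 1 else 0 := by
  have := congrFun (congrFun (hess_mul_tau h x) i) k
  simpa [Matrix.mul_apply, Matrix.one_apply] using this

lemma tau_hess_apply (h : MMg ψ V c C M) (x : E n) (i k : Fin n) :
    ∑ j, tau ψ x i j * hess ψ x j k = if i = k then 1 else 0 := by
  have := congrFun (congrFun (tau_mul_hess h x) i) k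
  simpa [Matrix.mul_apply, Matrix.one_apply] using this

lemma tau_bound (h : MMg ψ V c C M) (x : E n) (i j : Fin n) : |tau ψ x i j| ≤ 1 / c := by
  set w : E n := WithLp.toLp 2 (fun k => tau ψ x k j) with hw
  have h1 := h.lower x w
  have h2 : qf (hess ψ x) w = w j := by
    rw [qf_eq]
    have : ∀ k, ((hess ψ x).mulVec (fun l => w l)) k = if k = j then 1 else 0 := by
      intro k
      have := hess_tau_apply h x k j
      simpa [Matrix.mulVec, dotProduct, hw] using this
    simp [this]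
  rw [h2] at h1
  have h3 : ∀ k, |w k| ≤ ‖w‖ := fun k => by
    have := PiLp.norm_apply_le w k
    simpa using this
  have h4 : w j ≤ ‖w‖ := le_trans (le_abs_self _) (h3 j)
  have h5 : ‖w‖ ≤ 1 / c := by
    rw [le_div_iff₀ h.c_pos]
    by_contra hcon
    push Not at hcon
    have hpos : 0 < ‖w‖ := by
      by_contra h0
      have : ‖w‖ = 0 := le_antisymm (not_lt.mp h0) (norm_nonneg _)
      rw [this] at hcon; simp at hcon; linarith
    nlinarith
  have h6 : tau ψ x i j = w i := rfl
  rw [h6]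
  exact (h3 i).trans h5

lemma tau_sub (h : MMg ψ V c C M) (x y : E n) :
    tau ψ x - tau ψ y = tau ψ x * (hess ψ y - hess ψ x) * tau ψ y := by
  rw [mul_sub, sub_mul, mul_assoc, hess_mul_tau h y, tau_mul_hess h x]
  simp

lemma tau_lip (h : MMg ψ V c C M) : ∃ K : ℝ≥0, ∀ i j, LipschitzWith K (fun x => tau ψ x i j) := by
  have hc := h.c_pos
  refine ⟨(∑ _p : Fin n, ∑ _q : Fin n, (1 / c) * (1 / c) * |M|).toNNReal, fun i j => ?_⟩
  refine LipschitzWith.of_dist_le_mul fun x y => ?_
  rw [Real.coe_toNNReal _ (by positivity), Real.dist_eq, dist_eq_norm]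
  have h1 := congrFun (congrFun (tau_sub h x y) i) j
  have h2 : tau ψ x i j - tau ψ y i j =
      ∑ q, ∑ p, tau ψ x i p * (hess ψ y p q - hess ψ x p q) * tau ψ y q j := by
    rw [Matrix.sub_apply] at h1
    rw [h1, Matrix.mul_apply]
    refine Finset.sum_congr rfl fun q _ => ?_
    rw [Matrix.mul_apply, Finset.sum_mul]
    rfl
  rw [h2, Finset.sum_mul]
  refine (Finset.abs_sum_le_sum_abs _ _).trans (Finset.sum_le_sum fun q _ => ?_)
  rw [Finset.sum_mul]
  refine (Finset.abs_sum_le_sum_abs _ _).trans (Finset.sum_le_sum fun p _ => ?_)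
  rw [abs_mul, abs_mul]
  have h3 : |hess ψ y p q - hess ψ x p q| ≤ |M| * ‖x - y‖ := by
    refine (h.lip p q y x).trans ?_
    rw [norm_sub_rev]
    exact mul_le_mul_of_nonneg_right (le_abs_self _) (norm_nonneg _)
  calc |tau ψ x i p| * |hess ψ y p q - hess ψ x p q| * |tau ψ y q j|
      ≤ (1 / c) * (|M| * ‖x - y‖) * (1 / c) := by
        refine mul_le_mul (mul_le_mul (tau_bound h x i p) h3 (abs_nonneg _) (by positivity))
          (tau_bound h y q j) (abs_nonneg _) (by positivity)
    _ = (1 / c) * (1 / c) * |M| * ‖x - y‖ := by ring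

lemma hess_lip (h : MMg ψ V c C M) (i j : Fin n) :
    LipschitzWith M.toNNReal (fun x => hess ψ x i j) := by
  refine LipschitzWith.of_dist_le_mul fun x y => ?_
  rw [Real.dist_eq, dist_eq_norm]
  exact (h.lip i j x y).trans (mul_le_mul_of_nonneg_right (Real.le_coe_toNNReal _) (norm_nonneg _))

/-- the good points: all entries of `D²ψ` and of `τ` are differentiable -/
def Good (ψ : E n → ℝ) (x : E n) : Prop :=
  (∀ i j, DifferentiableAt ℝ (fun z => hess ψ z i j) x) ∧
    ∀ i j, DifferentiableAt ℝ (fun z => tau ψ z i j) x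

lemma ae_good (h : MMg ψ V c C M) : ∀ᵐ x : E n, Good ψ x := by
  obtain ⟨K, hK⟩ := tau_lip h
  have h1 : ∀ᵐ x : E n, ∀ i j, DifferentiableAt ℝ (fun z => hess ψ z i j) x := by
    rw [ae_all_iff]; intro i; rw [ae_all_iff]; intro j
    exact (hess_lip h i j).ae_differentiableAt
  have h2 : ∀ᵐ x : E n, ∀ i j, DifferentiableAt ℝ (fun z => tau ψ z i j) x := by
    rw [ae_all_iff]; intro i; rw [ae_all_iff]; intro j
    exact (hK i j).ae_differentiableAt
  filter_upwards [h1, h2] with x a b using ⟨a, b⟩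

/-- third derivatives -/
noncomputable def T3 (ψ : E n → ℝ) (x : E n) (a i j : Fin n) : ℝ := pd a (fun z => hess ψ z i j) x

lemma T3_symm23 (h : MMg ψ V c C M) (x : E n) (a i j : Fin n) : T3 ψ x a i j = T3 ψ x a j i := by
  unfold T3
  have : (fun z => hess ψ z i j) = fun z => hess ψ z j i := by
    funext z; exact hess_symm h.C2 z i j
  rw [this]

lemma T3_symm12 (h : MMg ψ V c C M) {x : E n} (hx : Good ψ x) (a i j : Fin n) :
    T3 ψ x a i j = T3 ψ x i a j := by
  have hd : ∀ y, HasFDerivAt (pd j ψ) (fderiv ℝ (pd j ψ) y) y := by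
    intro y
    have h1 : Differentiable ℝ (fderiv ℝ ψ) :=
      (h.C2.fderiv_right (m := 1) (by norm_num)).differentiable (by norm_num)
    have h2 : DifferentiableAt ℝ (pd j ψ) y := by
      unfold pd
      exact (h1.differentiableAt).clm_apply (differentiableAt_const _)
    exact h2.hasFDerivAt
  have hf : fderiv ℝ (pd j ψ) = fun y => ∑ k, hess ψ y k j • (EuclideanSpace.proj k : E n →L[ℝ] ℝ) := by
    funext y
    exact clm_eq_sum _
  have hf' : HasFDerivAt (fderiv ℝ (pd j ψ))
      (∑ k, (fderiv ℝ (fun z => hess ψ z k j) x).smulRight (EuclideanSpace.proj k : E n →L[ℝ] ℝ)) x := by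
    rw [hf]
    refine HasFDerivAt.fun_sum fun k _ => ?_
    exact ((hx.1 k j).hasFDerivAt).smul_const (EuclideanSpace.proj k : E n →L[ℝ] ℝ)
  have key := second_derivative_symmetric_of_eventually (Eventually.of_forall hd) hf' (ei a) (ei i)
  have h3 : ∀ a i : Fin n, (∑ k, (fderiv ℝ (fun z => hess ψ z k j) x).smulRight
      (EuclideanSpace.proj k : E n →L[ℝ] ℝ)) (ei a) (ei i) = T3 ψ x a i j := by
    intro a i
    simp [T3, pd, ei]
  rw [h3, h3] at key
  exact key

/-- derivative of `τ` -/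
lemma pd_tau (h : MMg ψ V c C M) {x : E n} (hx : Good ψ x) (a i j : Fin n) :
    pd a (fun z => tau ψ z i j) x = - ∑ p, ∑ q, tau ψ x i p * T3 ψ x a p q * tau ψ x q j := by
  have h1 : ∀ p, ∑ q, (T3 ψ x a p q * tau ψ x q j + hess ψ x p q * pd a (fun z => tau ψ z q j) x)
      = 0 := by
    intro p
    have h2 : (fun z => ∑ q, hess ψ z p q * tau ψ z q j) = fun _ => if p = j then (1 : ℝ) else 0 := by
      funext z; exact hess_tau_apply h z p j
    have h3 : pd a (fun z => ∑ q, hess ψ z p q * tau ψ z q j) x = 0 := by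
      rw [h2]; exact pd_const _ _ _
    rw [pd_sum Finset.univ (fun q _ => (hx.1 p q).fun_mul (hx.2 q j))] at h3
    rw [← h3]
    refine Finset.sum_congr rfl fun q _ => ?_
    rw [pd_mul (hx.1 p q) (hx.2 q j)]
    rfl
  have h4 : ∑ p, tau ψ x i p * ∑ q, (T3 ψ x a p q * tau ψ x q j +
      hess ψ x p q * pd a (fun z => tau ψ z q j) x) = 0 := by
    simp [h1]
  have h5 : ∑ p, tau ψ x i p * ∑ q, hess ψ x p q * pd a (fun z => tau ψ z q j) x
      = pd a (fun z => tau ψ z i j) x := by
    simp only [Finset.mul_sum]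
    rw [Finset.sum_comm]
    have : ∀ q, ∑ p, tau ψ x i p * (hess ψ x p q * pd a (fun z => tau ψ z q j) x)
        = (if i = q then 1 else 0) * pd a (fun z => tau ψ z q j) x := by
      intro q
      rw [← tau_hess_apply h x i q, Finset.sum_mul]
      exact Finset.sum_congr rfl fun p _ => by ring
    simp [this]
  simp only [Finset.sum_add_distrib, mul_add] at h4
  rw [h5] at h4
  have h6 : ∑ p, tau ψ x i p * ∑ q, T3 ψ x a p q * tau ψ x q j =
      ∑ p, ∑ q, tau ψ x i p * T3 ψ x a p q * tau ψ x q j := by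
    refine Finset.sum_congr rfl fun p _ => ?_
    rw [Finset.mul_sum]
    exact Finset.sum_congr rfl fun q _ => by ring
  rw [h6] at h4
  linarith

/-- `S a b c = ∑_e τ_ae ∂_e τ_bc` -/
noncomputable def S3 (ψ : E n → ℝ) (x : E n) (a b k : Fin n) : ℝ :=
  ∑ e, tau ψ x a e * pd e (fun z => tau ψ z b k) x

lemma S3_eq (h : MMg ψ V c C M) {x : E n} (hx : Good ψ x) (a b k : Fin n) :
    S3 ψ x a b k = - ∑ e, ∑ p, ∑ q, tau ψ x a e * tau ψ x b p * tau ψ x k q * T3 ψ x e p q := by
  unfold S3
  rw [← Finset.sum_neg_distrib]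
  refine Finset.sum_congr rfl fun e _ => ?_
  rw [pd_tau h hx, mul_neg, Finset.mul_sum]
  congr 1
  refine Finset.sum_congr rfl fun p _ => ?_
  rw [Finset.mul_sum]
  refine Finset.sum_congr rfl fun q _ => ?_
  rw [tau_symm h x q k]
  ring

/-- (SY) -/
lemma S3_symm12 (h : MMg ψ V c C M) {x : E n} (hx : Good ψ x) (a b k : Fin n) :
    S3 ψ x a b k = S3 ψ x b a k := by
  rw [S3_eq h hx, S3_eq h hx, Finset.sum_comm]
  congr 1
  refine Finset.sum_congr rfl fun p _ => Finset.sum_congr rfl fun e _ =>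
    Finset.sum_congr rfl fun q _ => ?_
  rw [T3_symm12 h hx e p q]
  ring

lemma S3_symm23 (h : MMg ψ V c C M) (x : E n) (a b k : Fin n) :
    S3 ψ x a b k = S3 ψ x a k b := by
  unfold S3
  have : (fun z => tau ψ z b k) = fun z => tau ψ z k b := by
    funext z; exact tau_symm h z b k
  rw [this]

/-- Jacobi's formula for a matrix of differentiable functions -/
lemma pd_det {A : E n → Matrix (Fin n) (Fin n) ℝ} {x : E n}
    (hA : ∀ i j, DifferentiableAt ℝ (fun z => A z i j) x) (a : Fin n) :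
    DifferentiableAt ℝ (fun z => (A z).det) x ∧
    pd a (fun z => (A z).det) x =
      ∑ i, ∑ k, (A x).adjugate i k * pd a (fun z => A z k i) x := by
  have h1 : (fun z => (A z).det) = fun z => ∑ σ : Equiv.Perm (Fin n),
      (Equiv.Perm.sign σ : ℝ) * ∏ i, A z (σ i) i := by
    funext z
    rw [Matrix.det_apply']
  have h2 : ∀ σ : Equiv.Perm (Fin n), HasFDerivAt (fun z => ∏ i, A z (σ i) i)
      (∑ i, (∏ j ∈ Finset.univ.erase i, A x (σ j) j) • fderiv ℝ (fun z => A z (σ i) i) x) x := by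
    intro σ
    exact HasFDerivAt.finsetProd fun i _ => (hA (σ i) i).hasFDerivAt
  have h3 : HasFDerivAt (fun z => (A z).det) (∑ σ : Equiv.Perm (Fin n),
      (Equiv.Perm.sign σ : ℝ) •
      (∑ i, (∏ j ∈ Finset.univ.erase i, A x (σ j) j) • fderiv ℝ (fun z => A z (σ i) i) x)) x := by
    rw [h1]
    refine HasFDerivAt.fun_sum fun σ _ => ?_
    exact (h2 σ).const_mul _
  refine ⟨h3.differentiableAt, ?_⟩
  unfold pd
  rw [h3.fderiv]
  have h4 : ∀ i, ∑ k, (A x).adjugate i k * fderiv ℝ (fun z => A z k i) x (ei a) =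
      ∑ σ : Equiv.Perm (Fin n), (Equiv.Perm.sign σ : ℝ) *
        ((∏ j ∈ Finset.univ.erase i, A x (σ j) j) * fderiv ℝ (fun z => A z (σ i) i) x (ei a)) := by
    intro i
    have h5 := congrFun (Matrix.cramer_eq_adjugate_mulVec (A x)
      (fun k => fderiv ℝ (fun z => A z k i) x (ei a))) i
    rw [Matrix.cramer_apply] at h5
    have h6 : ((A x).adjugate.mulVec (fun k => fderiv ℝ (fun z => A z k i) x (ei a))) i =
        ∑ k, (A x).adjugate i k * fderiv ℝ (fun z => A z k i) x (ei a) := rfl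
    rw [← h6, ← h5, Matrix.det_apply']
    refine Finset.sum_congr rfl fun σ _ => ?_
    congr 1
    rw [← Finset.mul_prod_erase Finset.univ _ (Finset.mem_univ i), mul_comm]
    congr 1
    · refine Finset.prod_congr rfl fun j hj => ?_
      rw [Matrix.updateCol_apply, if_neg (Finset.ne_of_mem_erase hj)]
    · rw [Matrix.updateCol_apply, if_pos rfl]
  simp only [sum_apply, smul_apply, smul_eq_mul, Finset.mul_sum]
  rw [Finset.sum_comm]
  refine Finset.sum_congr rfl fun i _ => ?_
  rw [h4]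

lemma diff_pd (h : MMg ψ V c C M) (i : Fin n) (x : E n) : DifferentiableAt ℝ (pd i ψ) x := by
  have h1 : Differentiable ℝ (fderiv ℝ ψ) :=
    (h.C2.fderiv_right (m := 1) (by norm_num)).differentiable (by norm_num)
  unfold pd
  exact (h1.differentiableAt).clm_apply (differentiableAt_const _)

lemma diff_psi (h : MMg ψ V c C M) (x : E n) : DifferentiableAt ℝ ψ x :=
  (h.C2.differentiable (by norm_num)).differentiableAt

lemma pd_V (h : MMg ψ V c C M) {x : E n} (hx : Good ψ x) (b : Fin n) :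
    pd b V x = (∑ i, x i * hess ψ x b i) - ∑ i, ∑ k, tau ψ x i k * T3 ψ x b k i := by
  have h1 : V = fun z => (∑ i, z i * pd i ψ z) - ψ z - Real.log (hess ψ z).det := by
    funext z; exact h.ma z
  have hdet := pd_det (A := hess ψ) hx.1 b
  have hne : (hess ψ x).det ≠ 0 := (hess_det_isUnit h x).ne_zero
  have hlog : DifferentiableAt ℝ (fun z => Real.log (hess ψ z).det) x := hdet.1.log hne
  have hs : ∀ i ∈ (Finset.univ : Finset (Fin n)), DifferentiableAt ℝ (fun z : E n => z i * pd i ψ z) x :=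
    fun i _ => (diff_coord i x).fun_mul (diff_pd h i x)
  have hsum : DifferentiableAt ℝ (fun z : E n => ∑ i, z i * pd i ψ z) x :=
    DifferentiableAt.fun_sum hs
  rw [h1, pd_sub (hsum.fun_sub (diff_psi h x)) hlog, pd_sub hsum (diff_psi h x),
    pd_sum Finset.univ hs]
  have h2 : ∀ i, pd b (fun z : E n => z i * pd i ψ z) x =
      (if i = b then 1 else 0) * pd i ψ x + x i * hess ψ x b i := by
    intro i
    rw [pd_mul (diff_coord i x) (diff_pd h i x), pd_coord]
    rfl
  have h3 : pd b (fun z => Real.log (hess ψ z).det) x =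
      ∑ i, ∑ k, tau ψ x i k * T3 ψ x b k i := by
    have h4 : pd b (fun z => Real.log (hess ψ z).det) x =
        ((hess ψ x).det)⁻¹ * pd b (fun z => (hess ψ z).det) x := by
      unfold pd
      rw [fderiv.log hdet.1 hne]; rfl
    rw [h4, hdet.2, Finset.mul_sum]
    refine Finset.sum_congr rfl fun i _ => ?_
    rw [Finset.mul_sum]
    refine Finset.sum_congr rfl fun k _ => ?_
    have h5 : tau ψ x i k = ((hess ψ x).det)⁻¹ * (hess ψ x).adjugate i k := by
      unfold tau
      rw [Matrix.inv_def, Ring.inverse_eq_inv']; rfl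
    rw [h5, T3]; ring
  rw [h3]
  simp only [h2, Finset.sum_add_distrib]
  simp

/-- (ST) -/
lemma stein_ae (h : MMg ψ V c C M) {x : E n} (hx : Good ψ x) (a : Fin n) :
    ∑ b, (pd b V x * tau ψ x a b - pd b (fun z => tau ψ z a b) x) = x a := by
  rw [Finset.sum_sub_distrib]
  have h1 : ∑ b, pd b V x * tau ψ x a b = x a -
      ∑ b, ∑ q, ∑ p, tau ψ x a b * tau ψ x q p * T3 ψ x b p q := by
    have h2 : ∀ b, pd b V x * tau ψ x a b = (∑ i, x i * (tau ψ x a b * hess ψ x b i)) -
        ∑ q, ∑ p, tau ψ x a b * tau ψ x q p * T3 ψ x b p q := by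
      intro b
      rw [pd_V h hx b, sub_mul, Finset.sum_mul, Finset.sum_mul]
      congr 1
      · exact Finset.sum_congr rfl fun i _ => by ring
      · refine Finset.sum_congr rfl fun q _ => ?_
        rw [Finset.sum_mul]
        exact Finset.sum_congr rfl fun p _ => by ring
    simp only [h2]
    rw [Finset.sum_sub_distrib, Finset.sum_comm]
    congr 1
    have h3 : ∀ i, ∑ b, x i * (tau ψ x a b * hess ψ x b i) = x i * (if a = i then 1 else 0) := by
      intro i
      rw [← Finset.mul_sum, tau_hess_apply h x a i]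
    simp [h3]
  have h4 : ∑ b, pd b (fun z => tau ψ z a b) x =
      - ∑ b, ∑ q, ∑ p, tau ψ x a b * tau ψ x q p * T3 ψ x b p q := by
    have h5 : ∀ b, pd b (fun z => tau ψ z a b) x =
        - ∑ p, ∑ q, tau ψ x a p * tau ψ x q b * T3 ψ x p b q := by
      intro b
      rw [pd_tau h hx]
      congr 1
      refine Finset.sum_congr rfl fun p _ => Finset.sum_congr rfl fun q _ => ?_
      rw [T3_symm12 h hx b p q]; ring
    simp only [h5]
    rw [Finset.sum_neg_distrib, Finset.sum_comm]
    congr 1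
    refine Finset.sum_congr rfl fun p _ => ?_
    rw [Finset.sum_comm]
  rw [h1, h4]; ring

end Vale.Agent.P254.MC.G766.AE
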