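import Vale.Agent.P254.MC.G766.Def

open MeasureTheory
open scoped Topology

namespace Vale.Agent.P254.MC.G766

open Vale.Agent.P227.M

variable {n : ℕ}

namespace MMg

variable {ψ V : E n → ℝ} {c C M : ℝ}

theorem hess_symm (h : MMg ψ V c C M) (x : E n) (i j : Fin n) : hess ψ x i j = hess ψ x j i :=
  _root_.Vale.Agent.P227.M.hess_symm h.C2 x i j

theorem hess_posDef (h : MMg ψ V c C M) (x : E n) : (hess ψ x).PosDef := by
  refine Matrix.PosDef.of_dotProduct_mulVec_pos ?_ fun v hv => ?_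
  · ext i j
    simpa using h.hess_symm x j i
  · have h1 := h.lower x (WithLp.toLp 2 v)
    rw [qf_eq_dot] at h1
    have h2 : 0 < ‖(WithLp.toLp 2 v : E n)‖ := by
      rw [norm_pos_iff]
      intro h0
      apply hv
      have := congrArg WithLp.ofLp h0
      simpa using this
    have h3 : 0 < c * ‖(WithLp.toLp 2 v : E n)‖ ^ 2 := mul_pos h.c_pos (pow_pos h2 2)
    simpa using h3.trans_le h1

theorem det_pos (h : MMg ψ V c C M) (x : E n) : 0 < (hess ψ x).det := (h.hess_posDef x).det_pos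

theorem isUnit_det (h : MMg ψ V c C M) (x : E n) : IsUnit (hess ψ x).det := (h.det_pos x).ne'.isUnit

theorem tau_mul_hess (h : MMg ψ V c C M) (x : E n) : tau ψ x * hess ψ x = 1 :=
  Matrix.nonsing_inv_mul _ (h.isUnit_det x)

theorem hess_mul_tau (h : MMg ψ V c C M) (x : E n) : hess ψ x * tau ψ x = 1 :=
  Matrix.mul_nonsing_inv _ (h.isUnit_det x)

theorem tau_posDef (h : MMg ψ V c C M) (x : E n) : (tau ψ x).PosDef := (h.hess_posDef x).inv

theorem tau_posSemidef (h : MMg ψ V c C M) (x : E n) : (tau ψ x).PosSemidef :=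
  (h.tau_posDef x).posSemidef

theorem tau_symm (h : MMg ψ V c C M) (x : E n) (i j : Fin n) : tau ψ x i j = tau ψ x j i := by
  have h1 := (h.tau_posDef x).1
  have h2 := congrFun (congrFun h1 j) i
  simpa using h2

theorem tau_transpose (h : MMg ψ V c C M) (x : E n) : (tau ψ x).transpose = tau ψ x := by
  ext i j
  exact h.tau_symm x j i

/-- the vector `τ v` -/
theorem exists_tau_vec (h : MMg ψ V c C M) (x v : E n) : ∃ w : E n,
    (∀ i, w i = ∑ j, tau ψ x i j * v j) ∧ (∀ i, v i = ∑ j, hess ψ x i j * w j) := by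
  refine ⟨WithLp.toLp 2 ((tau ψ x).mulVec v.ofLp), fun i => rfl, fun i => ?_⟩
  have h1 : (hess ψ x).mulVec ((tau ψ x).mulVec v.ofLp) = v.ofLp := by
    rw [Matrix.mulVec_mulVec, h.hess_mul_tau, Matrix.one_mulVec]
  exact (congrFun h1 i).symm

theorem tau_vec_bounds (h : MMg ψ V c C M) (x v w : E n)
    (hw : ∀ i, w i = ∑ j, tau ψ x i j * v j) (hv : ∀ i, v i = ∑ j, hess ψ x i j * w j) :
    ‖w‖ ≤ c⁻¹ * ‖v‖ ∧ qf (tau ψ x) v = ∑ i, v i * w i ∧ qf (hess ψ x) w = ∑ i, v i * w i := by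
  have h1 : qf (tau ψ x) v = ∑ i, v i * w i := by
    unfold qf
    refine Finset.sum_congr rfl fun i _ => ?_
    rw [hw i, Finset.mul_sum]
    refine Finset.sum_congr rfl fun j _ => ?_
    ring
  have h2 : qf (hess ψ x) w = ∑ i, v i * w i := by
    unfold qf
    refine Finset.sum_congr rfl fun i _ => ?_
    rw [hv i, Finset.sum_mul]
    refine Finset.sum_congr rfl fun j _ => ?_
    ring
  refine ⟨?_, h1, h2⟩
  have h3 := h.lower x w
  have h4 : ∑ i, v i * w i ≤ ‖v‖ * ‖w‖ := by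
    have h5 := real_inner_le_norm w v
    have h6 : inner ℝ w v = ∑ i, v i * w i := by
      rw [PiLp.inner_apply]
      rfl
    rw [h6] at h5
    linarith
  have hc := h.c_pos
  rw [h2] at h3
  rcases eq_or_lt_of_le (norm_nonneg w) with h0 | h0
  · rw [← h0]
    positivity
  · have h5 : c * ‖w‖ ≤ ‖v‖ := by
      by_contra hcon
      push Not at hcon
      nlinarith
    rw [inv_mul_eq_div, le_div_iff₀ hc]
    linarith

theorem qf_tau_le (h : MMg ψ V c C M) (x v : E n) : qf (tau ψ x) v ≤ c⁻¹ * ‖v‖ ^ 2 := by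
  obtain ⟨w, hw, hv⟩ := h.exists_tau_vec x v
  obtain ⟨h1, h2, h3⟩ := h.tau_vec_bounds x v w hw hv
  have h4 : ∑ i, v i * w i ≤ ‖v‖ * ‖w‖ := by
    have h5 := real_inner_le_norm w v
    have h6 : inner ℝ w v = ∑ i, v i * w i := by
      rw [PiLp.inner_apply]
      rfl
    rw [h6] at h5
    linarith
  rw [h2]
  have h5 := mul_le_mul_of_nonneg_left h1 (norm_nonneg v)
  linarith [h5, h4, mul_comm ‖v‖ (c⁻¹ * ‖v‖)]

theorem qf_tau_nonneg (h : MMg ψ V c C M) (x v : E n) : 0 ≤ qf (tau ψ x) v := by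
  obtain ⟨w, hw, hv⟩ := h.exists_tau_vec x v
  obtain ⟨h1, h2, h3⟩ := h.tau_vec_bounds x v w hw hv
  rw [h2, ← h3]
  have hc := h.c_pos
  exact le_trans (by positivity) (h.lower x w)

theorem qf_add_smul (A : Matrix (Fin n) (Fin n) ℝ) (hA : ∀ i j, A i j = A j i) (w v : E n) (t : ℝ) :
    qf A (w + t • v) = qf A w + 2 * t * (∑ i, v i * ∑ j, A i j * w j) + t ^ 2 * qf A v := by
  unfold qf
  have h1 : ∑ i, v i * ∑ j, A i j * w j = ∑ i, ∑ j, A i j * w i * v j := by
    rw [Finset.sum_comm]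
    refine Finset.sum_congr rfl fun i _ => ?_
    rw [Finset.mul_sum]
    refine Finset.sum_congr rfl fun j _ => ?_
    rw [hA i j]
    ring
  have h2 : ∑ i, v i * ∑ j, A i j * w j = ∑ i, ∑ j, A i j * v i * w j := by
    refine Finset.sum_congr rfl fun i _ => ?_
    rw [Finset.mul_sum]
    refine Finset.sum_congr rfl fun j _ => ?_
    ring
  have h3 : 2 * t * (∑ i, v i * ∑ j, A i j * w j) = ∑ i, ∑ j, (t * (A i j * w i * v j)
      + t * (A i j * v i * w j)) := by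
    simp only [Finset.sum_add_distrib, ← Finset.mul_sum]
    rw [← h1]
    have h4 : ∑ i, ∑ j, A i j * v i * w j = ∑ i, v i * ∑ j, A i j * w j := h2.symm
    rw [h4]
    ring
  rw [h3, Finset.mul_sum, ← Finset.sum_add_distrib, ← Finset.sum_add_distrib]
  refine Finset.sum_congr rfl fun i _ => ?_
  rw [Finset.mul_sum, ← Finset.sum_add_distrib, ← Finset.sum_add_distrib]
  refine Finset.sum_congr rfl fun j _ => ?_
  simp only [PiLp.add_apply, PiLp.smul_apply, smul_eq_mul]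
  ring

theorem le_qf_tau (h : MMg ψ V c C M) (x v : E n) : C⁻¹ * ‖v‖ ^ 2 ≤ qf (tau ψ x) v := by
  rcases eq_or_lt_of_le (norm_nonneg v) with h0 | h0
  · rw [← h0]
    simpa using h.qf_tau_nonneg x v
  have hc := h.c_pos
  have hC : 0 < C := by
    have h1 := (h.lower x v).trans (h.upper x v)
    have h2 : 0 < ‖v‖ ^ 2 := pow_pos h0 2
    have h3 : c ≤ C := le_of_mul_le_mul_right h1 h2
    linarith
  obtain ⟨w, hw, hv⟩ := h.exists_tau_vec x v
  obtain ⟨h1, h2, h3⟩ := h.tau_vec_bounds x v w hw hv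
  have h4 := h.lower x (w + (-C⁻¹) • v)
  rw [qf_add_smul _ (h.hess_symm x)] at h4
  have h5 : ∑ i, v i * ∑ j, hess ψ x i j * w j = ‖v‖ ^ 2 := by
    rw [norm_sq_eq_sum]
    refine Finset.sum_congr rfl fun i _ => ?_
    rw [← hv i]
    ring
  rw [h5, h3] at h4
  have h6 : 0 ≤ c * ‖w + (-C⁻¹) • v‖ ^ 2 := by positivity
  have h7 := mul_le_mul_of_nonneg_left (h.upper x v) (sq_nonneg (-C⁻¹))
  have h8 : (-C⁻¹) ^ 2 * (C * ‖v‖ ^ 2) = C⁻¹ * ‖v‖ ^ 2 := by
    field_simp
  rw [h2]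
  rw [h8] at h7
  linarith

theorem abs_tau_le (h : MMg ψ V c C M) (x : E n) (i j : Fin n) : |tau ψ x i j| ≤ c⁻¹ := by
  obtain ⟨w, hw, hv⟩ := h.exists_tau_vec x (ei j)
  obtain ⟨h1, -, -⟩ := h.tau_vec_bounds x (ei j) w hw hv
  have h2 : w i = tau ψ x i j := by
    rw [hw i]
    simp [ei_apply]
  rw [norm_ei, mul_one] at h1
  rw [← h2]
  exact (abs_coord_le w i).trans h1

theorem M_nonneg' (h : MMg ψ V c C M) (i j : Fin n) : 0 ≤ M := by
  have h1 := h.lip i j (ei i) 0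
  rw [sub_zero, norm_ei, mul_one] at h1
  exact (abs_nonneg _).trans h1

theorem tau_lip (h : MMg ψ V c C M) (i j : Fin n) (x y : E n) :
    |tau ψ x i j - tau ψ y i j| ≤ (n : ℝ) ^ 2 * M * (c⁻¹) ^ 2 * ‖x - y‖ := by
  have h1 : tau ψ x - tau ψ y = tau ψ x * (hess ψ y - hess ψ x) * tau ψ y := by
    rw [mul_sub, sub_mul, h.tau_mul_hess, one_mul, mul_assoc, h.hess_mul_tau, mul_one]
  have h2 : tau ψ x i j - tau ψ y i j
      = ∑ l, ∑ k, tau ψ x i k * (hess ψ y k l - hess ψ x k l) * tau ψ y l j := by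
    have h3 := congrFun (congrFun h1 i) j
    rw [Matrix.sub_apply] at h3
    rw [h3, Matrix.mul_apply]
    refine Finset.sum_congr rfl fun l _ => ?_
    rw [Matrix.mul_apply, Finset.sum_mul]
    refine Finset.sum_congr rfl fun k _ => ?_
    rw [Matrix.sub_apply]
  have hc : 0 ≤ c⁻¹ := inv_nonneg.2 h.c_pos.le
  have h3 : ∀ l k, |tau ψ x i k * (hess ψ y k l - hess ψ x k l) * tau ψ y l j|
      ≤ c⁻¹ * (M * ‖x - y‖) * c⁻¹ := fun l k => by
    rw [abs_mul, abs_mul]
    have h4 := h.lip k l y x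
    rw [norm_sub_rev] at h4
    have h5 := h.abs_tau_le x i k
    have h6 := h.abs_tau_le y l j
    have h7 : 0 ≤ M * ‖x - y‖ := (abs_nonneg _).trans h4
    exact mul_le_mul (mul_le_mul h5 h4 (abs_nonneg _) hc) h6 (abs_nonneg _) (mul_nonneg hc h7)
  rw [h2]
  calc |∑ l, ∑ k, tau ψ x i k * (hess ψ y k l - hess ψ x k l) * tau ψ y l j|
      ≤ ∑ l, |∑ k, tau ψ x i k * (hess ψ y k l - hess ψ x k l) * tau ψ y l j| :=
        Finset.abs_sum_le_sum_abs _ _
    _ ≤ ∑ l : Fin n, ∑ k : Fin n, c⁻¹ * (M * ‖x - y‖) * c⁻¹ :=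
        Finset.sum_le_sum fun l _ => (Finset.abs_sum_le_sum_abs _ _).trans
          (Finset.sum_le_sum fun k _ => h3 l k)
    _ = (n : ℝ) ^ 2 * M * (c⁻¹) ^ 2 * ‖x - y‖ := by
        simp only [Finset.sum_const, Finset.card_univ, Fintype.card_fin, nsmul_eq_mul]
        ring

theorem continuous_hess (h : MMg ψ V c C M) (i j : Fin n) : Continuous (fun x => hess ψ x i j) :=
  _root_.Vale.Agent.P227.M.continuous_hess h.C2 i j

theorem tau_lipschitz (h : MMg ψ V c C M) (i j : Fin n) :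
    LipschitzWith (Real.toNNReal ((n : ℝ) ^ 2 * M * (c⁻¹) ^ 2)) (fun x => tau ψ x i j) := by
  refine LipschitzWith.of_dist_le_mul fun x y => ?_
  rw [Real.dist_eq, dist_eq_norm]
  have h0 : 0 ≤ (n : ℝ) ^ 2 * M * (c⁻¹) ^ 2 := by
    have := h.M_nonneg' i j
    positivity
  rw [Real.coe_toNNReal _ h0]
  exact h.tau_lip i j x y

theorem continuous_tau (h : MMg ψ V c C M) (i j : Fin n) : Continuous (fun x => tau ψ x i j) :=
  (h.tau_lipschitz i j).continuous

theorem gr_tau (h : MMg ψ V c C M) (i j : Fin n) : Gr (fun x => tau ψ x i j) :=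
  Gr.of_bound (h.continuous_tau i j) fun x => h.abs_tau_le x i j

theorem gr_hessψ (h : MMg ψ V c C M) (i j : Fin n) : Gr (fun x => hess ψ x i j) := by
  refine ⟨h.continuous_hess i j, |hess ψ 0 i j| + M, 1,
    add_nonneg (abs_nonneg _) (h.M_nonneg' i j), fun x => ?_⟩
  have h1 := h.lip i j x 0
  rw [sub_zero] at h1
  have h2 : |hess ψ x i j| ≤ |hess ψ x i j - hess ψ 0 i j| + |hess ψ 0 i j| := by
    calc |hess ψ x i j| = |(hess ψ x i j - hess ψ 0 i j) + hess ψ 0 i j| := by ring_nf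
      _ ≤ _ := abs_add_le _ _
  have h3 := norm_nonneg x
  have h4 := abs_nonneg (hess ψ 0 i j)
  have h5 := h.M_nonneg' i j
  rw [pow_one]
  nlinarith

/-! ### symmetry -/

/-! ### `Lop` -/

theorem gr_Lop_of (h : MMg ψ V c C M) {f : E n → ℝ} (h1 : ∀ i, Gr (pd i f))
    (h2 : ∀ i j, Gr (fun x => hess f x i j)) : Gr (Lop ψ f) := by
  refine Gr.sub (Gr.sum _ fun i _ => Gr.sum _ fun j _ => (h.gr_tau i j).mul (h2 i j))
    (Gr.sum _ fun i _ => (Gr.coord i).mul (h1 i))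

theorem gr_Lop (h : MMg ψ V c C M) {f : E n → ℝ} (hf : Test f) : Gr (Lop ψ f) :=
  h.gr_Lop_of hf.gr_pd hf.gr_hess

theorem continuous_Lop (h : MMg ψ V c C M) {f : E n → ℝ} (hf : ContDiff ℝ 2 f) :
    Continuous (Lop ψ f) := by
  unfold Lop
  refine Continuous.sub ?_ ?_
  · exact continuous_finsetSum _ fun i _ => continuous_finsetSum _ fun j _ =>
      (h.continuous_tau i j).mul (_root_.Vale.Agent.P227.M.continuous_hess hf i j)
  · refine continuous_finsetSum _ fun i _ => Continuous.mul (by fun_prop) ?_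
    exact (contDiff_pd (k := 1) hf (by norm_num) i).continuous

theorem gr_fld_of (h : MMg ψ V c C M) {u : E n → ℝ} (h1 : ∀ i, Gr (pd i u)) (b : Fin n) :
    Gr (fld ψ u b) := Gr.sum _ fun i _ => (h.gr_tau b i).mul (h1 i)

theorem gr_fld (h : MMg ψ V c C M) {u : E n → ℝ} (hu : Test u) (b : Fin n) : Gr (fld ψ u b) :=
  h.gr_fld_of hu.gr_pd b

theorem continuous_fld (h : MMg ψ V c C M) {u : E n → ℝ} (hu : ContDiff ℝ 1 u) (b : Fin n) :
    Continuous (fld ψ u b) :=
  continuous_finsetSum _ fun i _ => (h.continuous_tau b i).mul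
    (contDiff_pd (k := 0) hu (by norm_num) i).continuous

end MMg

end Vale.Agent.P254.MC.G766
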