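import Vale.Agent.P254.MC.G766.BL
import Vale.Agent.P227.M.LIN.Iface

open MeasureTheory Filter Topology
open scoped NNReal ContDiff

namespace Vale.Agent.P254.MC.G766.AE

open Vale.Agent.P227 Vale.Agent.P227.M Vale.Agent.P227.M.LIN Vale.Agent.P254.MC Vale.Agent.P254.MC.G766

variable {n : ℕ} {ψ V : E n → ℝ} {c C M : ℝ}

lemma smooth_w (hV : Reg V c C) : ContDiff ℝ (⊤ : ℕ∞) (fun x => Real.exp (-V x)) :=
  Real.contDiff_exp.comp hV.smooth.neg

lemma pd_w (hV : Reg V c C) (a : Fin n) (x : E n) :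
    pd a (fun z => Real.exp (-V z)) x = - pd a V x * Real.exp (-V x) := by
  have h1 : DifferentiableAt ℝ V x := (hV.smooth.differentiable (by simp)).differentiableAt
  unfold pd
  rw [fderiv_exp h1.fun_neg, fderiv_fun_neg]
  simp; ring

lemma test_pd {f : E n → ℝ} (hf : Test f) (a : Fin n) : Test (pd a f) := by
  refine ⟨?_, ?_⟩
  · unfold pd
    exact (hf.1.fderiv_right (m := (⊤ : ℕ∞)) (by simp)).clm_apply contDiff_const
  · exact hf.2.fderiv_apply ℝ (ei a)

lemma test_diff {f : E n → ℝ} (hf : Test f) (x : E n) : DifferentiableAt ℝ f x :=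
  (hf.1.differentiable (by simp)).differentiableAt

lemma pd_comm {f : E n → ℝ} (hf : ContDiff ℝ 2 f) (i j : Fin n) (x : E n) :
    pd i (pd j f) x = pd j (pd i f) x := hess_symm hf x i j

lemma test_two {f : E n → ℝ} (hf : Test f) : ContDiff ℝ 2 f := by
  have := contDiff_infty.mp hf.1 2
  exact_mod_cast this

lemma tau_BL (h : MMg ψ V c C M) (i j : Fin n) : BL (fun x => tau ψ x i j) := by
  obtain ⟨K, hK⟩ := tau_lip h
  exact ⟨K, 1 / c, hK i j, fun x => tau_bound h x i j⟩

/-- pointwise divergence of `w τ q` at good points -/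
lemma div_ae (hV : Reg V c C) (h : MMg ψ V c C M) {x : E n} (hx : Good ψ x) {q : Fin n → E n → ℝ}
    (hq : ∀ b, DifferentiableAt ℝ (q b) x) :
    ∑ a, pd a (fun z => ∑ b, tau ψ z a b * (q b z * Real.exp (-V z))) x =
      ((∑ a, ∑ b, tau ψ x a b * pd a (q b) x) - ∑ b, x b * q b x) * Real.exp (-V x) := by
  have hw : DifferentiableAt ℝ (fun z => Real.exp (-V z)) x :=
    ((smooth_w hV).differentiable (by simp)).differentiableAt
  have h1 : ∀ a, pd a (fun z => ∑ b, tau ψ z a b * (q b z * Real.exp (-V z))) x =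
      ∑ b, (tau ψ x a b * pd a (q b) x -
        (pd a V x * tau ψ x b a - pd a (fun z => tau ψ z b a) x) * q b x) * Real.exp (-V x) := by
    intro a
    rw [pd_sum Finset.univ (fun b _ => (hx.2 a b).fun_mul ((hq b).fun_mul hw))]
    refine Finset.sum_congr rfl fun b _ => ?_
    rw [pd_mul (hx.2 a b) ((hq b).fun_mul hw), pd_mul (hq b) hw, pd_w hV]
    have h2 : (fun z => tau ψ z b a) = fun z => tau ψ z a b := by
      funext z; exact tau_symm h z b a
    rw [h2, tau_symm h x b a]
    ring
  simp only [h1]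
  simp only [← Finset.sum_mul]
  congr 1
  simp only [Finset.sum_sub_distrib]
  congr 1
  rw [Finset.sum_comm]
  refine Finset.sum_congr rfl fun b _ => ?_
  rw [← Finset.sum_mul, stein_ae h hx b]

/-- Stein's identity for compactly supported Lipschitz fields -/
theorem stein_lip (hV : Reg V c C) (h : MMg ψ V c C M) {q : Fin n → E n → ℝ}
    (hq : ∀ b, BLC (q b)) :
    ∫ x, ((∑ a, ∑ b, tau ψ x a b * pd a (q b) x) - ∑ b, x b * q b x) * Real.exp (-V x) = 0 := by
  have hY : ∀ a, BLC (fun z => ∑ b, tau ψ z a b * (q b z * Real.exp (-V z))) := fun a =>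
    BLC.sum _ fun b _ => BLC.mul_left (tau_BL h a b) ((hq b).mul_smooth (smooth_w hV))
  have h1 : ∀ᵐ x : E n, ∀ b, DifferentiableAt ℝ (q b) x := by
    rw [ae_all_iff]; exact fun b => (hq b).1.ae_diff
  have h2 : ∫ x, ∑ a, pd a (fun z => ∑ b, tau ψ z a b * (q b z * Real.exp (-V z))) x = 0 := by
    rw [integral_finsetSum _ (fun a _ => (hY a).integrable_pd a)]
    exact Finset.sum_eq_zero fun a _ => integral_pd (hY a) a
  rw [← h2]
  refine integral_congr_ae ?_
  filter_upwards [ae_good h, h1] with x hx hqx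
  exact (div_ae hV h hx hqx).symm

lemma Lop_BLC (h : MMg ψ V c C M) {f : E n → ℝ} (hf : Test f) : BLC (Lop ψ f) := by
  unfold Lop
  refine BLC.sub ?_ ?_
  · refine BLC.sum _ fun i _ => BLC.sum _ fun j _ => ?_
    exact BLC.mul_left (tau_BL h i j) (blc_of_test (test_pd (test_pd hf j) i))
  · refine BLC.sum _ fun i _ => ?_
    refine blc_of_test ⟨?_, (test_pd hf i).2.mul_left⟩
    have : ContDiff ℝ (⊤ : ℕ∞) (fun x : E n => x i) := (EuclideanSpace.proj i : E n →L[ℝ] ℝ).contDiff
    exact this.mul (test_pd hf i).1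

/-- integration by parts, Lipschitz version -/
theorem ibp_lip (hV : Reg V c C) (h : MMg ψ V c C M) {f g : E n → ℝ} (hf : Test f) (hg : BL g) :
    ∫ x, (g x * Lop ψ f x + ∑ a, pd a g x * ∑ b, tau ψ x a b * pd b f x) * Real.exp (-V x) = 0 := by
  have hq : ∀ b, BLC (fun x => g x * pd b f x) := fun b =>
    BLC.mul_left hg (blc_of_test (test_pd hf b))
  rw [← stein_lip hV h hq]
  refine integral_congr_ae ?_
  filter_upwards [hg.ae_diff] with x hx
  congr 1
  have h1 : ∀ a b, pd a (fun z => g z * pd b f z) x = pd a g x * pd b f x + g x * hess f x a b := by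
    intro a b
    rw [pd_mul hx (test_diff (test_pd hf b) x)]; rfl
  simp only [h1, mul_add, Finset.sum_add_distrib]
  have h2 : ∑ a, ∑ b, tau ψ x a b * (pd a g x * pd b f x) =
      ∑ a, pd a g x * ∑ b, tau ψ x a b * pd b f x := by
    refine Finset.sum_congr rfl fun a _ => ?_
    rw [Finset.mul_sum]
    exact Finset.sum_congr rfl fun b _ => by ring
  have h3 : ∑ a, ∑ b, tau ψ x a b * (g x * hess f x a b) =
      g x * ∑ a, ∑ b, tau ψ x a b * hess f x a b := by
    rw [Finset.mul_sum]
    refine Finset.sum_congr rfl fun a _ => ?_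
    rw [Finset.mul_sum]
    exact Finset.sum_congr rfl fun b _ => by ring
  have h4 : ∑ b, x b * (g x * pd b f x) = g x * ∑ b, x b * pd b f x := by
    rw [Finset.mul_sum]
    exact Finset.sum_congr rfl fun b _ => by ring
  rw [h2, h3, h4]
  unfold Lop
  ring

/-- commutator of `∂_a` and `L` at good points -/
lemma pd_Lop {x : E n} (hx : Good ψ x) {f : E n → ℝ} (hf : Test f) (a : Fin n) :
    pd a (Lop ψ f) x = Lop ψ (pd a f) x +
      (∑ i, ∑ j, pd a (fun z => tau ψ z i j) x * hess f x i j) - pd a f x := by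
  have hd1 : ∀ i j, DifferentiableAt ℝ (fun z => hess f z i j) x := fun i j =>
    test_diff (test_pd (test_pd hf j) i) x
  have hd2 : ∀ i, DifferentiableAt ℝ (fun z : E n => z i * pd i f z) x := fun i =>
    (diff_coord i x).fun_mul (test_diff (test_pd hf i) x)
  have hs1 : ∀ i ∈ (Finset.univ : Finset (Fin n)),
      DifferentiableAt ℝ (fun z => ∑ j, tau ψ z i j * hess f z i j) x := fun i _ =>
    DifferentiableAt.fun_sum fun j _ => (hx.2 i j).fun_mul (hd1 i j)
  have h0 : Lop ψ f = fun z => (∑ i, ∑ j, tau ψ z i j * hess f z i j) - ∑ i, z i * pd i f z := rfl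
  rw [h0, pd_sub (DifferentiableAt.fun_sum hs1) (DifferentiableAt.fun_sum fun i _ => hd2 i),
    pd_sum Finset.univ hs1, pd_sum Finset.univ (fun i _ => hd2 i)]
  have h1 : ∀ i, pd a (fun z => ∑ j, tau ψ z i j * hess f z i j) x =
      ∑ j, (pd a (fun z => tau ψ z i j) x * hess f x i j +
        tau ψ x i j * hess (pd a f) x i j) := by
    intro i
    rw [pd_sum Finset.univ (fun j _ => (hx.2 i j).fun_mul (hd1 i j))]
    refine Finset.sum_congr rfl fun j _ => ?_
    rw [pd_mul (hx.2 i j) (hd1 i j)]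
    congr 2
    show pd a (pd i (pd j f)) x = pd i (pd j (pd a f)) x
    rw [pd_comm (test_two (test_pd hf j)) a i x]
    congr 1
    funext z
    exact pd_comm (test_two hf) a j z
  have h2 : ∀ i, pd a (fun z : E n => z i * pd i f z) x =
      (if i = a then 1 else 0) * pd i f x + x i * pd i (pd a f) x := by
    intro i
    rw [pd_mul (diff_coord i x) (test_diff (test_pd hf i) x), pd_coord,
      pd_comm (test_two hf) a i x]
  simp only [h1, h2, Finset.sum_add_distrib]
  unfold Lop
  simp
  ring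

/-- the pure algebra of the Bochner identity at one point -/
lemma boch_alg (t N : Fin n → Fin n → ℝ) (dt F3 : Fin n → Fin n → Fin n → ℝ) (F x g LF U : Fin n → ℝ)
    (L : ℝ)
    (hN : ∀ a b, N a b = N b a) (ht : ∀ a b, t a b = t b a)
    (hS1 : ∀ b i j, ∑ e, t b e * dt e i j = ∑ e, t i e * dt e b j)
    (hS2 : ∀ e i j, dt e i j = dt e j i)
    (hg : ∀ a, g a = ∑ b, t a b * F b)
    (hL : L = (∑ a, ∑ b, t a b * N a b) - ∑ b, x b * F b)
    (hLF : ∀ k, LF k = (∑ i, ∑ j, t i j * F3 i j k) - ∑ i, x i * N i k)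
    (hU : ∀ a, U a = LF a + (∑ i, ∑ j, dt a i j * N i j) - F a) :
    (∑ a, ∑ b, t a b * ((U a * F b + L * N a b) -
      ∑ k, ((∑ d, (dt a k d * F d + t k d * N a d)) * N b k + g k * F3 a b k))) -
      (∑ b, x b * (L * F b - ∑ k, g k * N b k)) =
    L ^ 2 - (∑ a, ∑ b, ∑ k, ∑ d, t a b * N b k * t k d * N d a) - ∑ a, F a * g a := by
  have e1 : ∑ a, ∑ b, t a b * ((U a * F b + L * N a b) -
      ∑ k, ((∑ d, (dt a k d * F d + t k d * N a d)) * N b k + g k * F3 a b k)) =
      (∑ a, U a * g a) + L * (∑ a, ∑ b, t a b * N a b) -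
      (∑ a, ∑ b, ∑ k, ∑ d, t a b * (dt a k d * F d * N b k)) -
      (∑ a, ∑ b, ∑ k, ∑ d, t a b * (t k d * N a d * N b k)) -
      (∑ k, g k * ∑ a, ∑ b, t a b * F3 a b k) := by
    have f1 : ∑ a, U a * g a = ∑ a, ∑ b, t a b * (U a * F b) := by
      refine Finset.sum_congr rfl fun a _ => ?_
      rw [hg, Finset.mul_sum]
      exact Finset.sum_congr rfl fun b _ => by ring
    have f2 : L * (∑ a, ∑ b, t a b * N a b) = ∑ a, ∑ b, t a b * (L * N a b) := by
      rw [Finset.mul_sum]
      refine Finset.sum_congr rfl fun a _ => ?_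
      rw [Finset.mul_sum]
      exact Finset.sum_congr rfl fun b _ => by ring
    have f3 : (∑ k, g k * ∑ a, ∑ b, t a b * F3 a b k) = ∑ a, ∑ b, ∑ k, t a b * (g k * F3 a b k) := by
      have : ∀ k, g k * ∑ a, ∑ b, t a b * F3 a b k = ∑ a, ∑ b, t a b * (g k * F3 a b k) := by
        intro k
        rw [Finset.mul_sum]
        refine Finset.sum_congr rfl fun a _ => ?_
        rw [Finset.mul_sum]
        exact Finset.sum_congr rfl fun b _ => by ring
      simp only [this]
      rw [Finset.sum_comm]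
      refine Finset.sum_congr rfl fun a _ => ?_
      rw [Finset.sum_comm]
    rw [f1, f2, f3]
    simp only [← Finset.sum_add_distrib, ← Finset.sum_sub_distrib]
    refine Finset.sum_congr rfl fun a _ => Finset.sum_congr rfl fun b _ => ?_
    simp only [Finset.sum_add_distrib, Finset.mul_sum, Finset.sum_mul, mul_sub, mul_add, add_mul]
    ring
  have e2 : (∑ b, x b * (L * F b - ∑ k, g k * N b k)) =
      L * (∑ b, x b * F b) - ∑ k, g k * ∑ b, x b * N b k := by
    have f1 : ∑ k, g k * ∑ b, x b * N b k = ∑ b, x b * ∑ k, g k * N b k := by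
      simp only [Finset.mul_sum]
      rw [Finset.sum_comm]
      exact Finset.sum_congr rfl fun b _ => Finset.sum_congr rfl fun k _ => by ring
    rw [f1, Finset.mul_sum, ← Finset.sum_sub_distrib]
    exact Finset.sum_congr rfl fun b _ => by ring
  have e3 : ∑ a, ∑ b, ∑ k, ∑ d, t a b * (dt a k d * F d * N b k) =
      ∑ a, g a * ∑ i, ∑ j, dt a i j * N i j := by
    have f1 : ∀ b k d, ∑ a, t a b * dt a k d = ∑ a, t d a * dt a b k := by
      intro b k d
      have g1 : ∑ a, t a b * dt a k d = ∑ e, t b e * dt e d k :=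
        Finset.sum_congr rfl fun a _ => by rw [ht a b, hS2 a k d]
      rw [g1, hS1 b d k]
    calc ∑ a, ∑ b, ∑ k, ∑ d, t a b * (dt a k d * F d * N b k)
        = ∑ b, ∑ k, ∑ d, (∑ a, t a b * dt a k d) * (F d * N b k) := by
          rw [Finset.sum_comm]
          refine Finset.sum_congr rfl fun b _ => ?_
          rw [Finset.sum_comm]
          refine Finset.sum_congr rfl fun k _ => ?_
          rw [Finset.sum_comm]
          refine Finset.sum_congr rfl fun d _ => ?_
          rw [Finset.sum_mul]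
          exact Finset.sum_congr rfl fun a _ => by ring
      _ = ∑ b, ∑ k, ∑ d, ∑ a, t a d * F d * (dt a b k * N b k) := by
          refine Finset.sum_congr rfl fun b _ => Finset.sum_congr rfl fun k _ =>
            Finset.sum_congr rfl fun d _ => ?_
          rw [f1, Finset.sum_mul]
          exact Finset.sum_congr rfl fun a _ => by rw [ht d a]; ring
      _ = ∑ a, g a * ∑ i, ∑ j, dt a i j * N i j := by
          have f2 : ∀ a, g a * ∑ i, ∑ j, dt a i j * N i j =
              ∑ i, ∑ j, ∑ d, t a d * F d * (dt a i j * N i j) := by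
            intro a
            rw [hg, Finset.mul_sum]
            refine Finset.sum_congr rfl fun i _ => ?_
            rw [Finset.mul_sum]
            refine Finset.sum_congr rfl fun j _ => ?_
            rw [Finset.sum_mul]
          simp only [f2]
          symm
          rw [Finset.sum_comm]
          refine Finset.sum_congr rfl fun i _ => ?_
          rw [Finset.sum_comm]
          refine Finset.sum_congr rfl fun j _ => ?_
          rw [Finset.sum_comm]
  have e4 : ∑ a, ∑ b, ∑ k, ∑ d, t a b * (t k d * N a d * N b k) =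
      ∑ a, ∑ b, ∑ k, ∑ d, t a b * N b k * t k d * N d a := by
    refine Finset.sum_congr rfl fun a _ => Finset.sum_congr rfl fun b _ =>
      Finset.sum_congr rfl fun k _ => Finset.sum_congr rfl fun d _ => ?_
    rw [hN a d]; ring
  have e5 : ∑ a, U a * g a = (∑ k, g k * LF k) + (∑ a, g a * ∑ i, ∑ j, dt a i j * N i j) -
      ∑ a, F a * g a := by
    rw [← Finset.sum_add_distrib, ← Finset.sum_sub_distrib]
    refine Finset.sum_congr rfl fun a _ => ?_
    rw [hU]; ring
  have e6 : ∑ k, g k * LF k = (∑ k, g k * ∑ i, ∑ j, t i j * F3 i j k) -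
      ∑ k, g k * ∑ b, x b * N b k := by
    rw [← Finset.sum_sub_distrib]
    refine Finset.sum_congr rfl fun k _ => ?_
    rw [hLF]; ring
  rw [e1, e2, e3, e4, e5, e6]
  have e7 : L ^ 2 = L * (∑ a, ∑ b, t a b * N a b) - L * (∑ b, x b * F b) := by
    rw [sq]
    nth_rewrite 2 [hL]
    ring
  rw [e7]; ring

lemma fld_BLC (h : MMg ψ V c C M) {f : E n → ℝ} (hf : Test f) (k : Fin n) : BLC (fld ψ f k) := by
  unfold fld
  exact BLC.sum _ fun d _ => BLC.mul_left (tau_BL h k d) (blc_of_test (test_pd hf d))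

lemma pd_fld {x : E n} (hx : Good ψ x) {f : E n → ℝ} (hf : Test f) (a k : Fin n) :
    pd a (fld ψ f k) x =
      ∑ d, (pd a (fun z => tau ψ z k d) x * pd d f x + tau ψ x k d * hess f x a d) := by
  unfold fld
  rw [pd_sum Finset.univ (fun d _ => (hx.2 k d).fun_mul (test_diff (test_pd hf d) x))]
  refine Finset.sum_congr rfl fun d _ => ?_
  rw [pd_mul (hx.2 k d) (test_diff (test_pd hf d) x)]
  rfl

/-- the Bochner field -/
noncomputable def qB (ψ f : E n → ℝ) (b : Fin n) (z : E n) : ℝ :=
  Lop ψ f z * pd b f z - ∑ k, fld ψ f k z * pd b (pd k f) z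

lemma qB_BLC (h : MMg ψ V c C M) {f : E n → ℝ} (hf : Test f) (b : Fin n) : BLC (qB ψ f b) := by
  unfold qB
  refine BLC.sub ((Lop_BLC h hf).mul_right (blc_of_test (test_pd hf b)).1) ?_
  exact BLC.sum _ fun k _ => (fld_BLC h hf k).mul_right (blc_of_test (test_pd (test_pd hf k) b)).1

lemma boch_ae (h : MMg ψ V c C M) {f : E n → ℝ} (hf : Test f) : ∀ᵐ x : E n,
    (∑ a, ∑ b, tau ψ x a b * pd a (qB ψ f b) x) - ∑ b, x b * qB ψ f b x =
      (Lop ψ f x) ^ 2 - (tau ψ x * hess f x * tau ψ x * hess f x).trace -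
        ∑ b, pd b f x * fld ψ f b x := by
  have h1 : ∀ᵐ x : E n, ∀ k, DifferentiableAt ℝ (fld ψ f k) x := by
    rw [ae_all_iff]; exact fun k => (fld_BLC h hf k).1.ae_diff
  filter_upwards [ae_good h, (Lop_BLC h hf).1.ae_diff, h1] with x hx hLx hfx
  have h2 : ∀ a b, pd a (qB ψ f b) x = (pd a (Lop ψ f) x * pd b f x + Lop ψ f x * hess f x a b) -
      ∑ k, ((∑ d, (pd a (fun z => tau ψ z k d) x * pd d f x + tau ψ x k d * hess f x a d)) *
        hess f x b k + fld ψ f k x * pd a (pd b (pd k f)) x) := by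
    intro a b
    have g1 : DifferentiableAt ℝ (fun z => Lop ψ f z * pd b f z) x :=
      hLx.fun_mul (test_diff (test_pd hf b) x)
    have g2 : ∀ k ∈ (Finset.univ : Finset (Fin n)),
        DifferentiableAt ℝ (fun z => fld ψ f k z * pd b (pd k f) z) x := fun k _ =>
      (hfx k).fun_mul (test_diff (test_pd (test_pd hf k) b) x)
    have g0 : qB ψ f b = fun z => Lop ψ f z * pd b f z - ∑ k, fld ψ f k z * pd b (pd k f) z := rfl
    rw [g0, pd_sub g1 (DifferentiableAt.fun_sum g2), pd_sum Finset.univ g2,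
      pd_mul hLx (test_diff (test_pd hf b) x)]
    congr 1
    refine Finset.sum_congr rfl fun k _ => ?_
    rw [pd_mul (hfx k) (test_diff (test_pd (test_pd hf k) b) x), pd_fld hx hf a k]
    rfl
  simp only [h2]
  have h3 := boch_alg (fun a b => tau ψ x a b) (fun a b => hess f x a b)
    (fun a i j => pd a (fun z => tau ψ z i j) x) (fun a b k => pd a (pd b (pd k f)) x)
    (fun a => pd a f x) (fun a => x a) (fun a => fld ψ f a x) (fun a => Lop ψ (pd a f) x)
    (fun a => pd a (Lop ψ f) x) (Lop ψ f x)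
    (fun a b => hess_symm (test_two hf) x a b) (fun a b => tau_symm h x a b)
    (fun b i j => S3_symm12 h hx b i j)
    (fun e i j => by
      have : (fun z => tau ψ z i j) = fun z => tau ψ z j i := by
        funext z; exact tau_symm h z i j
      simp only [this])
    (fun a => rfl) rfl
    (fun k => rfl)
    (fun a => pd_Lop hx hf a)
  simp only at h3
  have h4 : (∑ b, x b * qB ψ f b x) =
      ∑ b, x b * (Lop ψ f x * pd b f x - ∑ k, fld ψ f k x * hess f x b k) := rfl
  rw [h4, h3]
  congr 2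
  rw [Matrix.trace]
  refine Finset.sum_congr rfl fun a _ => ?_
  rw [Matrix.diag_apply, Matrix.mul_apply]
  simp only [Matrix.mul_apply, Finset.sum_mul]
  -- ∑ b ∑ k ∑ d t a b N b k t k d N d a = ∑ d ∑ k ∑ b ...
  rw [Finset.sum_comm]
  have : ∀ k, ∑ b, ∑ d, tau ψ x a b * hess f x b k * tau ψ x k d * hess f x d a =
      ∑ d, ∑ b, tau ψ x a b * hess f x b k * tau ψ x k d * hess f x d a := fun k => Finset.sum_comm
  simp only [this]
  rw [Finset.sum_comm]

end Vale.Agent.P254.MC.G766.AE

namespace Vale.Agent.P254.MC.G766.Lin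

open Vale.Agent.P227 Vale.Agent.P227.M Vale.Agent.P227.M.LIN Vale.Agent.P254.MC Vale.Agent.P254.MC.G766

open Vale.Agent.P254.MC.G766.AE

/-- LIN-5a -/
theorem boch {n : ℕ} {ψ V : E n → ℝ} {c C M : ℝ} (hV : Reg V c C) (h : MMg ψ V c C M)
    {f : E n → ℝ} (hf : Test f) :
    Ex V (fun x => (Lop ψ f x) ^ 2) =
      Ex V (fun x => (tau ψ x * hess f x * tau ψ x * hess f x).trace)
        + Ex V (fun x => ∑ b, pd b f x * fld ψ f b x) := by
  have h1 := stein_lip hV h (fun b => qB_BLC h hf b)
  have h2 : ∫ x, ((Lop ψ f x) ^ 2 - (tau ψ x * hess f x * tau ψ x * hess f x).trace -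
        ∑ b, pd b f x * fld ψ f b x) * Real.exp (-V x) = 0 := by
    rw [← h1]
    refine integral_congr_ae ?_
    filter_upwards [boch_ae h hf] with x hx
    rw [hx]
  have i1 : Integrable (fun x => (Lop ψ f x) ^ 2 * Real.exp (-V x)) := by
    have : BLC (fun x => Lop ψ f x * Lop ψ f x * Real.exp (-V x)) :=
      ((Lop_BLC h hf).mul_right (Lop_BLC h hf).1).mul_smooth (smooth_w hV)
    simpa [sq] using this.integrable
  have i3 : Integrable (fun x => (∑ b, pd b f x * fld ψ f b x) * Real.exp (-V x)) := by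
    have : BLC (fun x => (∑ b, pd b f x * fld ψ f b x) * Real.exp (-V x)) :=
      (BLC.sum _ fun b _ => (blc_of_test (test_pd hf b)).mul_right (fld_BLC h hf b).1).mul_smooth
        (smooth_w hV)
    exact this.integrable
  have i2 : Integrable (fun x => (tau ψ x * hess f x * tau ψ x * hess f x).trace *
      Real.exp (-V x)) := by
    have : BLC (fun x => (tau ψ x * hess f x * tau ψ x * hess f x).trace * Real.exp (-V x)) := by
      refine BLC.mul_smooth ?_ (smooth_w hV)
      have e : (fun x => (tau ψ x * hess f x * tau ψ x * hess f x).trace) = fun x =>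
          ∑ a, ∑ d, (∑ k, (∑ b, tau ψ x a b * hess f x b k) * tau ψ x k d) * hess f x d a := by
        funext x
        rw [Matrix.trace]
        refine Finset.sum_congr rfl fun a _ => ?_
        rw [Matrix.diag_apply, Matrix.mul_apply]
        simp only [Matrix.mul_apply]
      rw [e]
      refine BLC.sum _ fun a _ => BLC.sum _ fun d _ => ?_
      refine BLC.mul_left ?_ (blc_of_test (test_pd (test_pd hf a) d))
      refine BL.sum _ fun k _ => BL.mul (BL.sum _ fun b _ => ?_) (tau_BL h k d)
      exact (tau_BL h a b).mul (blc_of_test (test_pd (test_pd hf k) b)).1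
    exact this.integrable
  have h3 : ∫ x, (Lop ψ f x) ^ 2 * Real.exp (-V x) =
      (∫ x, (tau ψ x * hess f x * tau ψ x * hess f x).trace * Real.exp (-V x)) +
        ∫ x, (∑ b, pd b f x * fld ψ f b x) * Real.exp (-V x) := by
    have e : (fun x => ((Lop ψ f x) ^ 2 - (tau ψ x * hess f x * tau ψ x * hess f x).trace -
        ∑ b, pd b f x * fld ψ f b x) * Real.exp (-V x)) = fun x =>
        (Lop ψ f x) ^ 2 * Real.exp (-V x) -
          (tau ψ x * hess f x * tau ψ x * hess f x).trace * Real.exp (-V x) -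
          (∑ b, pd b f x * fld ψ f b x) * Real.exp (-V x) := by
      funext x; ring
    have i12 : Integrable (fun x => (Lop ψ f x) ^ 2 * Real.exp (-V x) -
        (tau ψ x * hess f x * tau ψ x * hess f x).trace * Real.exp (-V x)) := i1.sub i2
    rw [e, integral_sub i12 i3, integral_sub i1 i2] at h2
    linarith
  unfold Ex
  rw [h3, add_div]

end Vale.Agent.P254.MC.G766.Lin
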