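import Vale.Agent.P254.MC.Defs
import Vale.Agent.P227.M.BasMM
import Vale.Agent.P227.M.LIN.Iface

/-! P254/MC/G766: a private copy of `MMc` (so that ported lemmas do not clash), helper766. -/

open MeasureTheory
open scoped Topology

namespace Vale.Agent.P254.MC.G766

open Vale.Agent.P227.M

/-- `MMc` again -/
structure MMg {n : ℕ} (ψ V : E n → ℝ) (c C M : ℝ) : Prop where
  c_pos : 0 < c
  C2 : ContDiff ℝ 2 ψ
  lower : ∀ x v, c * ‖v‖ ^ 2 ≤ qf (hess ψ x) v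
  upper : ∀ x v, qf (hess ψ x) v ≤ C * ‖v‖ ^ 2
  lip : ∀ i j x y, |hess ψ x i j - hess ψ y i j| ≤ M * ‖x - y‖
  ma : ∀ x, V x = (∑ i, x i * pd i ψ x) - ψ x - Real.log (hess ψ x).det

theorem MMg.of {n : ℕ} {ψ V : E n → ℝ} {c C M : ℝ} (h : MMc ψ V c C M) : MMg ψ V c C M :=
  ⟨h.c_pos, h.C2, h.lower, h.upper, h.lip, h.ma⟩

end Vale.Agent.P254.MC.G766
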