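import Vale.Agent.P254.MC.G766.Esa255B
import Vale.Agent.P227.M.LIN.H1Cut

/-! # P227/M/LIN: `StmtESA` by mollification, part C: the limits (helper255). -/

open MeasureTheory Filter
open scoped Topology ENNReal NNReal ContDiff

namespace Vale.Agent.P254.MC.G766.Esa255

open Vale.Agent.P227 Vale.Agent.P227.M Vale.Agent.P227.M.LIN Vale.Agent.P254.MC Vale.Agent.P254.MC.G766

variable {n : ℕ} {ψ V : E n → ℝ} {c C M : ℝ}

theorem l2t_of {f : ℕ → E n → ℝ} {g : E n → ℝ} (hf : ∀ k, MemLp (f k) 2 volume)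
    (hg : MemLp g 2 volume)
    (h : ∀ ε > 0, ∃ δ₀ > 0, ∀ k : ℕ, 1 / ((k : ℝ) + 1) ≤ δ₀ →
      eLpNorm (fun x => f k x - g x) 2 volume ≤ ENNReal.ofReal ε) : Moll.L2t f g := by
  refine ⟨hf, hg, ?_⟩
  rw [Metric.tendsto_atTop]
  intro η hη
  obtain ⟨δ₀, hδ₀, h1⟩ := h (Real.sqrt (η / 2)) (Real.sqrt_pos.2 (by positivity))
  obtain ⟨N, hN⟩ := exists_nat_one_div_lt hδ₀
  refine ⟨N, fun k hk => ?_⟩
  have h2 : 1 / ((k : ℝ) + 1) ≤ δ₀ := by
    refine le_trans ?_ hN.le
    gcongr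
  have h3 := Moll.nsq_le_of_eLpNorm ((hf k).sub hg) (Real.sqrt_nonneg _) (h1 k h2)
  rw [Real.sq_sqrt (by positivity)] at h3
  rw [Real.dist_eq, sub_zero, abs_of_nonneg (Moll.nsq_nonneg _)]
  have h4 : Moll.nsq (fun x => f k x - g x) ≤ η / 2 := h3
  linarith

/-- the radii -/
noncomputable def dk (k : ℕ) : ℝ := 1 / ((k : ℝ) + 1)

theorem dk_pos (k : ℕ) : 0 < dk k := by unfold dk; positivity

theorem memLp_mol {δ : ℝ} (hδ : 0 < δ) {G : E n → ℝ} (hG : MemLp G 2 volume) :
    MemLp (Fried.mol δ G) 2 volume :=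
  ⟨(Fried.mol_contDiff hδ (hG.locallyIntegrable (by norm_num))).continuous.aestronglyMeasurable,
    (Fried.mol_bound hδ hG.1).trans_lt hG.2⟩

theorem l2t_mol {G : E n → ℝ} (hG : MemLp G 2 volume) :
    Moll.L2t (fun k => Fried.mol (dk k) G) G := by
  refine l2t_of (fun k => memLp_mol (dk_pos k) hG) hG fun ε hε => ?_
  obtain ⟨δ₀, hδ₀, h1⟩ := Fried.mol_tendsto hG hε
  exact ⟨δ₀, hδ₀, fun k hk => h1 _ (dk_pos k) hk⟩

theorem l2t_Rd (h : MMg ψ V c C M) {G : E n → ℝ} (hG : MemLp G 2 volume) (i : Fin n) :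
    Moll.L2t (fun k => Rd ψ (dk k) G i) (fun _ => 0) := by
  have hGl : LocallyIntegrable G volume := hG.locallyIntegrable (by norm_num)
  have h1 : ∀ j, Moll.L2t (fun k => pd j (Fried.com (fun z => tau ψ z i j) (dk k) G))
      (fun _ => 0) := by
    intro j
    refine l2t_of (fun k => ?_) (MemLp.zero' ) fun ε hε => ?_
    · refine ⟨(measurable_fderiv_apply_const ℝ _ (ei j)).aestronglyMeasurable, ?_⟩
      refine (Fried.com_bound (h.tau_lipschitz i j) (dk_pos k) hGl (ei j)).trans_lt ?_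
      exact ENNReal.mul_lt_top (ENNReal.mul_lt_top ENNReal.coe_lt_top
        (ENNReal.add_lt_top.2 ⟨enorm_lt_top, Fried.cst_lt_top _⟩)) hG.2
    · obtain ⟨δ₀, hδ₀, h1⟩ := Fried.com_tendsto (h.tau_lipschitz i j) hG (ei j) hε
      refine ⟨δ₀, hδ₀, fun k hk => ?_⟩
      simp only [sub_zero]
      exact h1 _ (dk_pos k) hk
  have h2 : Moll.L2t (fun k => Fried.com (fun z => z i) (dk k) G) (fun _ => 0) := by
    refine l2t_of (fun k => ?_) (MemLp.zero' ) fun ε hε => ?_
    · have hc : Continuous (Fried.com (fun z => z i) (dk k) G) := by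
        unfold Fried.com
        have a1 := (Fried.mol_contDiff (dk_pos k) hGl).continuous
        have a2 := (Fried.mol_contDiff (dk_pos k)
          (Fried.locInt_mul (a := fun z : E n => z i) (by fun_prop) hGl)).continuous
        exact (Continuous.mul (by fun_prop) a1).sub a2
      refine ⟨hc.aestronglyMeasurable, ?_⟩
      refine (Fried.int_ker_le (coord_lip i) (dk_pos k) hGl).trans_lt ?_
      exact ENNReal.mul_lt_top (ENNReal.mul_lt_top ENNReal.coe_lt_top ENNReal.ofReal_lt_top) hG.2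
    · set N : ℝ := (eLpNorm G 2 volume).toReal with hN
      have hN0 : 0 ≤ N := ENNReal.toReal_nonneg
      have hNe : eLpNorm G 2 volume = ENNReal.ofReal N := by
        rw [hN, ENNReal.ofReal_toReal hG.2.ne]
      refine ⟨ε / (N + 1), by positivity, fun k hk => ?_⟩
      simp only [sub_zero]
      refine (Fried.int_ker_le (coord_lip i) (dk_pos k) hGl).trans ?_
      rw [hNe, ENNReal.coe_one, one_mul, ← ENNReal.ofReal_mul (dk_pos k).le]
      refine ENNReal.ofReal_le_ofReal ?_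
      have h3 : dk k ≤ ε / (N + 1) := hk
      calc dk k * N ≤ ε / (N + 1) * N := by gcongr
        _ ≤ ε / (N + 1) * (N + 1) := by gcongr; linarith
        _ = ε := by field_simp
  have h3 := (Moll.L2t.sum (s := Finset.univ) (fun j _ => h1 j)).neg.sub h2
  have h4 : Moll.L2t (fun k x => -(∑ j, pd j (Fried.com (fun z => tau ψ z i j) (dk k) G) x) -
      Fried.com (fun z => z i) (dk k) G x) (fun _ => 0) := by simpa using h3
  exact h4

/-- the inequality in the limit -/
theorem energy_lim (h : MMg ψ V c C M) (hV : ContDiff ℝ ∞ V) {G : E n → ℝ} (hG : MemLp G 2 volume)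
    (hpt : ∀ δ : ℝ, 0 < δ → ∀ x, Fried.mol δ G x = ∑ i, pd i (Fd ψ δ G i) x)
    {χ : E n → ℝ} (hχ : Test χ) {α B : ℝ} (hα : 0 < α) (hB : 0 < B)
    (h1 : ∀ (x : E n) (P : Fin n → ℝ), α * ∑ i, P i ^ 2 ≤ ∑ i, P i * ∑ j, tau ψ x i j * P j)
    (h2 : ∀ (x : E n) (P : Fin n → ℝ), ∑ i, (∑ j, tau ψ x i j * P j) ^ 2 ≤ B * ∑ i, P i ^ 2) :
    ∫ x, χ x ^ 2 * Real.exp (V x) * G x ^ 2 ≤
      (2 * B / α + 1) * (∫ x, (∑ i, pd i χ x ^ 2) * Real.exp (V x) * G x ^ 2) := by
  have hχ1 : ContDiff ℝ ∞ χ := hχ.1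
  have hw : Continuous (fun x => Real.exp (V x)) := hV.exp.continuous
  have c1 : Continuous (fun x => χ x ^ 2 * Real.exp (V x)) := (hχ1.continuous.pow 2).mul hw
  have c1s : HasCompactSupport (fun x => χ x ^ 2 * Real.exp (V x)) :=
    HasCompactSupport.mul_right (hχ.2.comp_left (g := fun t : ℝ => t ^ 2) (by simp))
  have c2 : Continuous (fun x => (∑ i, pd i χ x ^ 2) * Real.exp (V x)) := by
    have : ∀ i, Continuous (pd i χ) := fun i => (contDiff_pd_top hχ1 i).continuous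
    exact (continuous_finsetSum _ fun i _ => (this i).pow 2).mul hw
  have c2s : HasCompactSupport (fun x => (∑ i, pd i χ x ^ 2) * Real.exp (V x)) := by
    have b1 : HasCompactSupport (fun x => ∑ i, pd i χ x ^ 2) := by
      have : (fun x => ∑ i, pd i χ x ^ 2) =
          (fun L : E n →L[ℝ] ℝ => ∑ i, (L (ei i)) ^ 2) ∘ fderiv ℝ χ := rfl
      rw [this]
      exact (hχ.2.fderiv ℝ).comp_left (by simp)
    exact b1.mul_right
  obtain ⟨D1, hD1⟩ := c1.bounded_above_of_compact_support c1s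
  obtain ⟨D2, hD2⟩ := c2.bounded_above_of_compact_support c2s
  have hm := l2t_mol hG
  have t1 := (hm.bmul c1.aestronglyMeasurable hD1).lim_mul hm
  have t2 := (hm.bmul c2.aestronglyMeasurable hD2).lim_mul hm
  have t3 : ∀ i, Tendsto (fun k => ∫ x, χ x ^ 2 * Real.exp (V x) * Rd ψ (dk k) G i x *
      Rd ψ (dk k) G i x) atTop (𝓝 0) := by
    intro i
    have := ((l2t_Rd h hG i).bmul c1.aestronglyMeasurable hD1).lim_mul (l2t_Rd h hG i)
    simpa using this
  have t4 := tendsto_finsetSum Finset.univ (fun i _ => t3 i)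
  have t5 := (t2.const_mul (2 * B / α + 1)).add (t4.const_mul (1 / α + 1))
  have t6 := le_of_tendsto_of_tendsto' t1 t5 (fun k => ?_)
  · simp only [Finset.sum_const_zero, mul_zero, add_zero] at t6
    refine le_trans (le_of_eq ?_) (t6.trans (le_of_eq ?_))
    · congr 1; funext x; ring
    · congr 2; funext x; ring
  · have e := energy h hV hG (dk_pos k) (hpt _ (dk_pos k)) hχ hα hB h1 h2
    refine le_trans (le_of_eq ?_) (e.trans (le_of_eq ?_))
    · congr 1; funext x; ring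
    · congr 1
      · congr 2; funext x; ring
      · congr 1
        rw [← integral_finsetSum]
        · congr 1; funext x
          rw [Finset.mul_sum]
          exact Finset.sum_congr rfl fun i _ => by ring
        · intro i _
          have b1 : Integrable (fun x => χ x ^ 2 * Real.exp (V x) * Rd ψ (dk k) G i x ^ 2) :=
            Integrable.bdd_mul (c := D1) (memLp_Rd h (dk_pos k) hG i).integrable_sq
              c1.aestronglyMeasurable (Eventually.of_forall hD1)
          refine b1.congr (Eventually.of_forall fun x => ?_)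
          simp only []
          ring

theorem tau_low (h : MMg ψ V c C M) (x : E n) (P : Fin n → ℝ) :
    1 / (|C| + 1) * ∑ i, P i ^ 2 ≤ ∑ i, P i * ∑ j, tau ψ x i j * P j := by
  set v : E n := WithLp.toLp 2 P with hv
  have e1 : ∑ i, P i ^ 2 = ‖v‖ ^ 2 := by rw [norm_sq_eq_sum]
  have e2 : ∑ i, P i * ∑ j, tau ψ x i j * P j = qf (tau ψ x) v := by
    unfold qf
    refine Finset.sum_congr rfl fun i _ => ?_
    rw [Finset.mul_sum]
    refine Finset.sum_congr rfl fun j _ => ?_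
    simp only [hv]
    ring
  rw [e1, e2]
  rcases le_or_gt C 0 with hC | hC
  · have h1 := h.lower x v
    have h2 := h.upper x v
    have hc := h.c_pos
    have h3 : ‖v‖ ^ 2 = 0 := by
      have h4 : 0 ≤ ‖v‖ ^ 2 := by positivity
      nlinarith
    rw [h3, mul_zero]
    exact h.qf_tau_nonneg x v
  · refine le_trans ?_ (h.le_qf_tau x v)
    gcongr
    rw [one_div, abs_of_pos hC]
    gcongr
    linarith

theorem tau_up (h : MMg ψ V c C M) (x : E n) (P : Fin n → ℝ) :
    ∑ i, (∑ j, tau ψ x i j * P j) ^ 2 ≤ (c⁻¹) ^ 2 * ∑ i, P i ^ 2 := by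
  set v : E n := WithLp.toLp 2 P with hv
  have e1 : ∑ i, P i ^ 2 = ‖v‖ ^ 2 := by rw [norm_sq_eq_sum]
  obtain ⟨w, hw1, hw2⟩ := h.exists_tau_vec x v
  have h1 := (h.tau_vec_bounds x v w hw1 hw2).1
  have e2 : ∑ i, (∑ j, tau ψ x i j * P j) ^ 2 = ‖w‖ ^ 2 := by
    rw [norm_sq_eq_sum]
    exact Finset.sum_congr rfl fun i _ => by rw [hw1 i]
  rw [e1, e2, ← mul_pow]
  exact pow_le_pow_left₀ (norm_nonneg _) h1 2

theorem esa {n : ℕ} {ψ V : E n → ℝ} {c C M : ℝ} (hN : Reg V c C) (h : MMg ψ V c C M)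
    (h0 : E n → ℝ) (hh : MemLp h0 2 (mu V))
    (horth : ∀ f : E n → ℝ, Test f → ∫ x, h0 x * (f x - Lop ψ f x) * Real.exp (-V x) = 0) :
    h0 =ᵐ[volume] 0 := by
  have hVc : Continuous V := hN.cont
  have hVs : ContDiff ℝ ∞ V := hN.smooth
  have hm : AEStronglyMeasurable h0 volume := hh.1.mono_ac (Vale.Agent.P227.M.LIN.T592.ac_mu hVc)
  have hq : Integrable (fun x => h0 x ^ 2 * Real.exp (-V x)) :=
    (Vale.Agent.P227.M.LIN.T592.integrable_mu hVc _).1 hh.integrable_sq
  set G : E n → ℝ := fun x => h0 x * Real.exp (-V x) with hG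
  have hexp : Continuous (fun x => Real.exp (-V x)) := Real.continuous_exp.comp hVc.neg
  have hGm : AEStronglyMeasurable G volume := hm.mul hexp.aestronglyMeasurable
  obtain ⟨A, hA⟩ := hN.quad_lower
  have hG2 : MemLp G 2 volume := by
    rw [memLp_two_iff_integrable_sq hGm]
    have h1 : Integrable (fun x => Real.exp (-V x) * (h0 x ^ 2 * Real.exp (-V x))) := by
      refine Integrable.bdd_mul (c := Real.exp A) hq hexp.aestronglyMeasurable
        (Eventually.of_forall fun x => ?_)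
      rw [Real.norm_eq_abs, abs_of_pos (Real.exp_pos _)]
      refine Real.exp_le_exp.2 ?_
      have h2 := hA x
      have h3 : 0 ≤ c / 4 * ‖x‖ ^ 2 := by
        have := hN.c_pos
        positivity
      linarith
    refine h1.congr (Eventually.of_forall fun x => ?_)
    simp only [hG]
    ring
  have hpt : ∀ δ : ℝ, 0 < δ → ∀ x, Fried.mol δ G x = ∑ i, pd i (Fd ψ δ G i) x := fun δ hδ x =>
    pointwise h (hG2.locallyIntegrable (by norm_num)) horth hδ x
  set K1 : ℝ := 2 * (c⁻¹) ^ 2 / (1 / (|C| + 1)) + 1 with hK1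
  have hK1p : 0 ≤ K1 := by positivity
  have hc := hN.c_pos
  have hqe : ∀ x, Real.exp (V x) * G x ^ 2 = h0 x ^ 2 * Real.exp (-V x) := by
    intro x
    simp only [hG]
    rw [Real.exp_neg]
    field_simp
  set q : E n → ℝ := fun x => h0 x ^ 2 * Real.exp (-V x) with hqd
  have hq0 : ∀ x, 0 ≤ q x := fun x => by simp only [hqd]; positivity
  have main : ∀ χ : E n → ℝ, Test χ → ∫ x, χ x ^ 2 * q x ≤ K1 * ∫ x, (∑ i, pd i χ x ^ 2) * q x := by
    intro χ hχ
    have := energy_lim h hVs hG2 hpt hχ (α := 1 / (|C| + 1)) (B := (c⁻¹) ^ 2) (by positivity)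
      (by positivity) (tau_low h) (tau_up h)
    simp only [mul_assoc, hqe] at this
    exact this
  obtain ⟨C3, hC3, hcut⟩ := LIN.cutoff n
  have hcut' : ∀ k : ℕ, ∃ χ : E n → ℝ, Test χ ∧ (∀ x, |χ x| ≤ 1) ∧
      (∀ x, ‖x‖ < (k : ℝ) + 1 → χ x = 1) ∧ (∀ x a, |pd a χ x| ≤ C3 / ((k : ℝ) + 1)) := by
    intro k
    have hR : (1 : ℝ) ≤ (k : ℝ) + 1 := by
      have : (0 : ℝ) ≤ k := Nat.cast_nonneg k
      linarith
    obtain ⟨χ, a1, a2, a3, -, a5, -, -⟩ := hcut _ hR
    refine ⟨χ, a1, a2, a3, fun x a => ?_⟩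
    rcases lt_or_ge ‖x‖ ((k : ℝ) + 1) with hx | hx
    · have h1 : χ =ᶠ[𝓝 x] fun _ => 1 := by
        have : ∀ᶠ y in 𝓝 x, ‖y‖ < (k : ℝ) + 1 := (continuous_norm.tendsto x).eventually (gt_mem_nhds hx)
        filter_upwards [this] with y hy using a3 y hy
      have h2 : pd a χ x = 0 := by
        unfold pd
        rw [h1.fderiv_eq]
        simp
      rw [h2, abs_zero]
      positivity
    · have h1 := (a5 x a).2
      rw [le_div_iff₀ (by positivity)]
      have h2 : |pd a χ x| * ((k : ℝ) + 1) ≤ |pd a χ x| * ‖x‖ := by gcongr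
      linarith [mul_comm ‖x‖ |pd a χ x|]
  choose χ b1 b2 b3 b4 using hcut'
  have lim1 : Tendsto (fun k => ∫ x, χ k x ^ 2 * q x) atTop (𝓝 (∫ x, q x)) := by
    refine tendsto_integral_of_dominated_convergence q (fun k => ?_) hq (fun k => ?_) ?_
    · exact ((b1 k).1.continuous.pow 2).aestronglyMeasurable.mul hq.1
    · refine Eventually.of_forall fun x => ?_
      rw [norm_mul, Real.norm_eq_abs, Real.norm_eq_abs, abs_of_nonneg (hq0 x), abs_pow]
      have := pow_le_one₀ (n := 2) (abs_nonneg _) (b2 k x)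
      nlinarith [hq0 x]
    · refine Eventually.of_forall fun x => ?_
      refine tendsto_const_nhds.congr' ?_
      obtain ⟨N, hN'⟩ := exists_nat_gt ‖x‖
      filter_upwards [eventually_ge_atTop N] with k hk
      have h1 : ‖x‖ < (k : ℝ) + 1 := by
        have : (N : ℝ) ≤ k := by exact_mod_cast hk
        linarith
      rw [b3 k x h1]
      simp
  have up : ∀ k, ∫ x, χ k x ^ 2 * q x ≤ K1 * (n * C3 ^ 2 * ∫ x, q x) * (1 / ((k : ℝ) + 1)) ^ 2 := by
    intro k
    refine (main _ (b1 k)).trans ?_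
    rw [mul_assoc K1]
    refine mul_le_mul_of_nonneg_left ?_ hK1p
    have e : n * C3 ^ 2 * (∫ x, q x) * (1 / ((k : ℝ) + 1)) ^ 2 =
        ∫ x, (n * (C3 / ((k : ℝ) + 1)) ^ 2) * q x := by
      rw [integral_const_mul]
      ring
    rw [e]
    refine integral_mono_of_nonneg (Eventually.of_forall fun x => ?_) (hq.const_mul _)
      (Eventually.of_forall fun x => ?_)
    · exact mul_nonneg (Finset.sum_nonneg fun i _ => sq_nonneg _) (hq0 x)
    · refine mul_le_mul_of_nonneg_right ?_ (hq0 x)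
      have : ∀ i ∈ (Finset.univ : Finset (Fin n)), pd i (χ k) x ^ 2 ≤ (C3 / ((k : ℝ) + 1)) ^ 2 := by
        intro i _
        exact sq_le_sq' (abs_le.1 (b4 k x i)).1 (abs_le.1 (b4 k x i)).2
      refine (Finset.sum_le_sum this).trans (le_of_eq ?_)
      simp
  have lim2 : Tendsto (fun k : ℕ => K1 * (n * C3 ^ 2 * ∫ x, q x) * (1 / ((k : ℝ) + 1)) ^ 2) atTop
      (𝓝 0) := by
    have := (tendsto_one_div_add_atTop_nhds_zero_nat (𝕜 := ℝ)).pow 2
    simpa using this.const_mul (K1 * (n * C3 ^ 2 * ∫ x, q x))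
  have hle : ∫ x, q x ≤ 0 := le_of_tendsto_of_tendsto' lim1 lim2 up
  have hz : ∫ x, q x = 0 := le_antisymm hle (integral_nonneg hq0)
  rw [integral_eq_zero_iff_of_nonneg hq0 hq] at hz
  filter_upwards [hz] with x hx
  simp only [hqd, Pi.zero_apply, mul_eq_zero, (Real.exp_pos _).ne', or_false] at hx
  simpa using hx

end Vale.Agent.P254.MC.G766.Esa255
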