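import Vale.Agent.P254.MC.G766.Esa255A
/-! # P227/M/LIN: `StmtESA` by mollification, part B: the energy inequality (helper255). -/

open MeasureTheory Filter
open scoped Topology ENNReal NNReal ContDiff

namespace Vale.Agent.P254.MC.G766.Esa255

open Vale.Agent.P227 Vale.Agent.P227.M Vale.Agent.P227.M.LIN Vale.Agent.P254.MC Vale.Agent.P254.MC.G766

variable {n : ℕ} {ψ V : E n → ℝ} {c C M : ℝ}

theorem alg (τ : Fin n → Fin n → ℝ) (P g R : Fin n → ℝ) (χ u α B : ℝ) (hα : 0 < α) (hB : 0 < B)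
    (h1 : α * ∑ i, P i ^ 2 ≤ ∑ i, P i * ∑ j, τ i j * P j)
    (h2 : ∑ i, (∑ j, τ i j * P j) ^ 2 ≤ B * ∑ i, P i ^ 2) :
    -∑ i, (2 * χ * g i * u + χ ^ 2 * P i) * ((∑ j, τ i j * P j) + R i) ≤
      (2 * B / α + 1) * ((∑ i, g i ^ 2) * u ^ 2) + (1 / α + 1) * (χ ^ 2 * ∑ i, R i ^ 2) := by
  set T : Fin n → ℝ := fun i => ∑ j, τ i j * P j with hT
  have key : ∀ i, -((2 * χ * g i * u + χ ^ 2 * P i) * (T i + R i)) ≤
      α / (2 * B) * χ ^ 2 * T i ^ 2 + (2 * B / α + 1) * u ^ 2 * g i ^ 2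
        + (1 / α + 1) * χ ^ 2 * R i ^ 2 + α / 4 * χ ^ 2 * P i ^ 2 - χ ^ 2 * (P i * T i) := by
    intro i
    have a1 : 0 ≤ α / (2 * B) * (χ * T i + 2 * B / α * (g i * u)) ^ 2 := by positivity
    have a1' : α / (2 * B) * (χ * T i + 2 * B / α * (g i * u)) ^ 2 =
        α / (2 * B) * χ ^ 2 * T i ^ 2 + 2 * χ * T i * g i * u + 2 * B / α * (g i ^ 2 * u ^ 2) := by
      field_simp
      ring
    have a2 : 0 ≤ (χ * R i + g i * u) ^ 2 := sq_nonneg _
    have a3 : 0 ≤ χ ^ 2 * (α / 4 * (P i + 2 / α * R i) ^ 2) := by positivity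
    have a3' : χ ^ 2 * (α / 4 * (P i + 2 / α * R i) ^ 2) =
        α / 4 * χ ^ 2 * P i ^ 2 + χ ^ 2 * (P i * R i) + 1 / α * (χ ^ 2 * R i ^ 2) := by
      field_simp
      ring
    rw [a1'] at a1
    rw [a3'] at a3
    nlinarith [a1, a2, a3]
  have h3 : -∑ i, (2 * χ * g i * u + χ ^ 2 * P i) * (T i + R i) ≤
      α / (2 * B) * χ ^ 2 * ∑ i, T i ^ 2 + (2 * B / α + 1) * u ^ 2 * ∑ i, g i ^ 2
        + (1 / α + 1) * χ ^ 2 * ∑ i, R i ^ 2 + α / 4 * χ ^ 2 * ∑ i, P i ^ 2
        - χ ^ 2 * ∑ i, P i * T i := by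
    rw [← Finset.sum_neg_distrib]
    refine (Finset.sum_le_sum fun i _ => key i).trans (le_of_eq ?_)
    simp only [Finset.sum_add_distrib, Finset.sum_sub_distrib, Finset.mul_sum]
  have h4 : α / (2 * B) * χ ^ 2 * ∑ i, T i ^ 2 ≤ α / 2 * χ ^ 2 * ∑ i, P i ^ 2 := by
    have := mul_le_mul_of_nonneg_left h2 (show 0 ≤ α / (2 * B) * χ ^ 2 by positivity)
    refine this.trans (le_of_eq ?_)
    field_simp
  have h5 : χ ^ 2 * (α * ∑ i, P i ^ 2) ≤ χ ^ 2 * ∑ i, P i * T i :=
    mul_le_mul_of_nonneg_left h1 (sq_nonneg _)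
  have h6 : 0 ≤ α / 4 * χ ^ 2 * ∑ i, P i ^ 2 := by
    have : 0 ≤ ∑ i, P i ^ 2 := Finset.sum_nonneg fun i _ => sq_nonneg _
    positivity
  nlinarith [h3, h4, h5, h6]

/-- the remainder -/
noncomputable def Rd (ψ : E n → ℝ) (δ : ℝ) (G : E n → ℝ) (i : Fin n) (x : E n) : ℝ :=
  -(∑ j, pd j (Fried.com (fun z => tau ψ z i j) δ G) x) - Fried.com (fun z => z i) δ G x

theorem coord_lip (i : Fin n) : LipschitzWith 1 (fun z : E n => z i) := by
  refine LipschitzWith.of_dist_le_mul fun x y => ?_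
  rw [Real.dist_eq, dist_eq_norm, NNReal.coe_one, one_mul]
  have := abs_coord_le (x - y) i
  simpa using this

theorem Fd_ae (h : MMg ψ V c C M) {δ : ℝ} (hδ : 0 < δ) {G : E n → ℝ}
    (hG : LocallyIntegrable G volume) :
    ∀ᵐ x : E n, ∀ i, Fd ψ δ G i x =
      (∑ j, tau ψ x i j * (pd j (Fried.mol δ G) x + pd j V x * Fried.mol δ G x)) +
        Rd ψ δ G i x := by
  have hd : ∀ᵐ x : E n, ∀ i j, DifferentiableAt ℝ (fun z => tau ψ z i j) x := by
    rw [ae_all_iff]
    intro i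
    rw [ae_all_iff]
    intro j
    exact (h.tau_lipschitz i j).ae_differentiableAt
  filter_upwards [hd, AE.ae_good h] with x hx hg i
  have h1 : ∀ j, pd j (Fried.mol δ (fun z => tau ψ z i j * G z)) x =
      tau ψ x i j * pd j (Fried.mol δ G) x + pd j (fun z => tau ψ z i j) x * Fried.mol δ G x
        - pd j (Fried.com (fun z => tau ψ z i j) δ G) x := by
    intro j
    have h2 := Fried.com_fderiv (h.tau_lipschitz i j) hδ hG (hx i j) (ei j)
    unfold Fried.ker at h2
    unfold pd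
    linarith
  have h3 : Fried.mol δ (fun z => z i * G z) x = x i * Fried.mol δ G x -
      Fried.com (fun z => z i) δ G x := by
    unfold Fried.com
    ring
  have h4 := AE.stein_ae h hg i
  unfold Fd Rd
  simp only [h1, h3]
  have h5 : x i * Fried.mol δ G x = ∑ b, (pd b V x * tau ψ x i b * Fried.mol δ G x -
      pd b (fun z => tau ψ z i b) x * Fried.mol δ G x) := by
    rw [← h4, Finset.sum_mul]
    exact Finset.sum_congr rfl fun b _ => by ring
  rw [h5]
  simp only [Finset.sum_add_distrib, Finset.sum_sub_distrib, mul_add]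
  have h6 : ∑ b, tau ψ x i b * (pd b V x * Fried.mol δ G x) =
      ∑ b, pd b V x * tau ψ x i b * Fried.mol δ G x :=
    Finset.sum_congr rfl fun b _ => by ring
  rw [h6]
  ring

theorem memLp_Rd (h : MMg ψ V c C M) {δ : ℝ} (hδ : 0 < δ) {G : E n → ℝ}
    (hG : MemLp G 2 volume) (i : Fin n) : MemLp (Rd ψ δ G i) 2 volume := by
  have hGl : LocallyIntegrable G volume := hG.locallyIntegrable (by norm_num)
  have h1 : ∀ j, MemLp (pd j (Fried.com (fun z => tau ψ z i j) δ G)) 2 volume := by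
    intro j
    refine ⟨(measurable_fderiv_apply_const ℝ _ (ei j)).aestronglyMeasurable, ?_⟩
    refine (Fried.com_bound (h.tau_lipschitz i j) hδ hGl (ei j)).trans_lt ?_
    exact ENNReal.mul_lt_top (ENNReal.mul_lt_top ENNReal.coe_lt_top
      (ENNReal.add_lt_top.2 ⟨enorm_lt_top, Fried.cst_lt_top _⟩)) hG.2
  have h2 : MemLp (Fried.com (fun z => z i) δ G) 2 volume := by
    have hc : Continuous (Fried.com (fun z => z i) δ G) := by
      unfold Fried.com
      have a1 := (Fried.mol_contDiff hδ hGl).continuous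
      have a2 := (Fried.mol_contDiff hδ (Fried.locInt_mul (a := fun z : E n => z i) (by fun_prop) hGl)).continuous
      exact (Continuous.mul (by fun_prop) a1).sub a2
    refine ⟨hc.aestronglyMeasurable, ?_⟩
    refine (Fried.int_ker_le (coord_lip i) hδ hGl).trans_lt ?_
    exact ENNReal.mul_lt_top (ENNReal.mul_lt_top ENNReal.coe_lt_top ENNReal.ofReal_lt_top) hG.2
  unfold Rd
  have h3 : MemLp (fun x => ∑ j, pd j (Fried.com (fun z => tau ψ z i j) δ G) x) 2 volume :=
    memLp_finsetSum _ fun j _ => h1 j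
  exact h3.neg.sub h2

/-- the energy inequality at fixed `δ` and fixed cut-off `χ` -/
theorem energy (h : MMg ψ V c C M) (hV : ContDiff ℝ ∞ V) {G : E n → ℝ} (hG : MemLp G 2 volume)
    {δ : ℝ} (hδ : 0 < δ) (hpt : ∀ x, Fried.mol δ G x = ∑ i, pd i (Fd ψ δ G i) x)
    {χ : E n → ℝ} (hχ : Test χ) {α B : ℝ} (hα : 0 < α) (hB : 0 < B)
    (h1 : ∀ (x : E n) (P : Fin n → ℝ), α * ∑ i, P i ^ 2 ≤ ∑ i, P i * ∑ j, tau ψ x i j * P j)
    (h2 : ∀ (x : E n) (P : Fin n → ℝ), ∑ i, (∑ j, tau ψ x i j * P j) ^ 2 ≤ B * ∑ i, P i ^ 2) :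
    ∫ x, χ x ^ 2 * Real.exp (V x) * Fried.mol δ G x ^ 2 ≤
      (2 * B / α + 1) * (∫ x, (∑ i, pd i χ x ^ 2) * Real.exp (V x) * Fried.mol δ G x ^ 2) +
        (1 / α + 1) * (∫ x, χ x ^ 2 * Real.exp (V x) * ∑ i, Rd ψ δ G i x ^ 2) := by
  have hGl : LocallyIntegrable G volume := hG.locallyIntegrable (by norm_num)
  set u : E n → ℝ := Fried.mol δ G with hu
  have hus : ContDiff ℝ ∞ u := Fried.mol_contDiff hδ hGl
  have hχ1 : ContDiff ℝ ∞ χ := hχ.1
  have hws : ContDiff ℝ ∞ (fun x => Real.exp (V x)) := hV.exp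
  set φ : E n → ℝ := fun x => χ x ^ 2 * Real.exp (V x) * u x with hφ
  have hφs : ContDiff ℝ ∞ φ := ((hχ1.pow 2).mul hws).mul hus
  have hχ2 : HasCompactSupport (fun x => χ x ^ 2) := hχ.2.comp_left (g := fun t : ℝ => t ^ 2) (by simp)
  have hφc : HasCompactSupport φ := (hχ2.mul_right).mul_right
  have hFs : ∀ i, ContDiff ℝ ∞ (Fd ψ δ G i) := fun i => contDiff_Fd h hδ hGl i
  have hpφ : ∀ i x, pd i φ x = Real.exp (V x) * (2 * χ x * pd i χ x * u x +
      χ x ^ 2 * (pd i u x + pd i V x * u x)) := by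
    intro i x
    have d1 : HasFDerivAt χ (fderiv ℝ χ x) x := (hχ1.differentiable (by simp) x).hasFDerivAt
    have d2 : HasFDerivAt V (fderiv ℝ V x) x := (hV.differentiable (by simp) x).hasFDerivAt
    have d3 : HasFDerivAt u (fderiv ℝ u x) x := (hus.differentiable (by simp) x).hasFDerivAt
    have d4 := ((d1.pow 2).mul d2.exp).mul d3
    have d5 : fderiv ℝ φ x = _ := d4.fderiv
    unfold pd
    rw [d5]
    simp
    ring
  have hpc : ∀ i, Continuous (pd i φ) := fun i => (contDiff_pd_top hφs i).continuous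
  have hps : ∀ i, HasCompactSupport (pd i φ) := fun i => LIN.hasCompactSupport_fderiv hφc (ei i)
  -- integration by parts
  have e1 : ∫ x, χ x ^ 2 * Real.exp (V x) * u x ^ 2 = -∫ x, ∑ i, pd i φ x * Fd ψ δ G i x := by
    have a1 : ∀ i, Integrable (fun x => pd i φ x * Fd ψ δ G i x) := fun i =>
      ((hpc i).mul (hFs i).continuous).integrable_of_hasCompactSupport (hps i).mul_right
    have a2 : ∀ i, Integrable (fun x => pd i (Fd ψ δ G i) x * φ x) := fun i =>
      ((contDiff_pd_top (hFs i) i).continuous.mul hφs.continuous).integrable_of_hasCompactSupport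
        hφc.mul_left
    rw [integral_finsetSum _ fun i _ => a1 i, ← Finset.sum_neg_distrib]
    have a3 : ∀ i, -∫ x, pd i φ x * Fd ψ δ G i x = ∫ x, pd i (Fd ψ δ G i) x * φ x := by
      intro i
      have := Moll.ibp ((hFs i).of_le (by simp)) (hφs.of_le (by simp)) hφc (ei i)
      have b1 : ∫ x, Fd ψ δ G i x * pd i φ x = -∫ x, pd i (Fd ψ δ G i) x * φ x := this
      simp only [mul_comm (pd i φ _)]
      rw [b1, neg_neg]
    simp only [a3]
    rw [← integral_finsetSum _ fun i _ => a2 i]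
    congr 1
    funext x
    rw [← Finset.sum_mul, ← hpt x]
    simp only [hφ]
    ring
  have c1 : Continuous (fun x => (∑ i, pd i χ x ^ 2) * Real.exp (V x) * u x ^ 2) := by
    have : ∀ i, Continuous (pd i χ) := fun i => (contDiff_pd_top hχ1 i).continuous
    exact ((continuous_finsetSum _ fun i _ => (this i).pow 2).mul hws.continuous).mul
      (hus.continuous.pow 2)
  have c1s : HasCompactSupport (fun x => (∑ i, pd i χ x ^ 2) * Real.exp (V x) * u x ^ 2) := by
    have b1 : HasCompactSupport (fun x => ∑ i, pd i χ x ^ 2) := by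
      have : (fun x => ∑ i, pd i χ x ^ 2) =
          (fun L : E n →L[ℝ] ℝ => ∑ i, (L (ei i)) ^ 2) ∘ fderiv ℝ χ := rfl
      rw [this]
      exact (hχ.2.fderiv ℝ).comp_left (by simp)
    exact b1.mul_right.mul_right
  have i1 := c1.integrable_of_hasCompactSupport (μ := volume) c1s
  have i2 : Integrable (fun x => χ x ^ 2 * Real.exp (V x) * ∑ i, Rd ψ δ G i x ^ 2) := by
    have c2 : Continuous (fun x => χ x ^ 2 * Real.exp (V x)) :=
      (hχ1.continuous.pow 2).mul hws.continuous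
    have c2s : HasCompactSupport (fun x => χ x ^ 2 * Real.exp (V x)) := hχ2.mul_right
    obtain ⟨D, hD⟩ := c2.bounded_above_of_compact_support c2s
    refine Integrable.bdd_mul (c := D) (integrable_finsetSum _ fun i _ => (memLp_Rd h hδ hG i).integrable_sq)
      c2.aestronglyMeasurable (Eventually.of_forall hD)
  rw [← integral_const_mul, ← integral_const_mul, ← integral_add (i1.const_mul _) (i2.const_mul _),
    e1, ← integral_neg]
  refine integral_mono_ae ?_ ((i1.const_mul _).add (i2.const_mul _)) ?_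
  · refine Integrable.neg (integrable_finsetSum _ fun i _ => ?_)
    exact ((hpc i).mul (hFs i).continuous).integrable_of_hasCompactSupport (hps i).mul_right
  · filter_upwards [Fd_ae h hδ hGl] with x hx
    have k1 := alg (fun i j => tau ψ x i j) (fun i => pd i u x + pd i V x * u x)
      (fun i => pd i χ x) (fun i => Rd ψ δ G i x) (χ x) (u x) α B hα hB (h1 x _) (h2 x _)
    have k2 : -∑ i, pd i φ x * Fd ψ δ G i x = Real.exp (V x) *
        (-∑ i, (2 * χ x * pd i χ x * u x + χ x ^ 2 * (pd i u x + pd i V x * u x)) *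
          ((∑ j, tau ψ x i j * (pd j u x + pd j V x * u x)) + Rd ψ δ G i x)) := by
      rw [mul_neg, Finset.mul_sum]
      congr 1
      refine Finset.sum_congr rfl fun i _ => ?_
      rw [hpφ, hx i]
      ring
    refine le_trans (le_of_eq k2) ?_
    refine (mul_le_mul_of_nonneg_left k1 (Real.exp_pos _).le).trans (le_of_eq ?_)
    ring

end Vale.Agent.P254.MC.G766.Esa255
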